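import Vale.Agent.P237.Coord

/-!
# Slicing a body with round cross-sections
-/

namespace Vale.Agent.P237R

open MeasureTheory Set Metric Vale.Agent.P237
open scoped RealInnerProductSpace ENNReal

/-- The volume of the unit ball. -/
noncomputable def kap (n : ℕ) : ℝ :=
  (volume (closedBall (0 : EuclideanSpace ℝ (Fin n)) 1)).toReal

lemma kap_pos (n : ℕ) : 0 < kap n :=
  ENNReal.toReal_pos (measure_closedBall_pos volume _ one_pos).ne' measure_closedBall_lt_top.ne

lemma kap_eq_unitBallVol {n : ℕ} (hn : 0 < n) : kap n = unitBallVol n := by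
  have : Nonempty (Fin n) := ⟨⟨0, hn⟩⟩
  rw [kap, unitBallVol, Measure.addHaar_closedBall_eq_addHaar_ball]

lemma volume_closedBall_eq {n : ℕ} (c : EuclideanSpace ℝ (Fin n)) {r : ℝ} (hr : 0 ≤ r) :
    volume (closedBall c r) = ENNReal.ofReal (kap n * r ^ n) := by
  rw [Measure.addHaar_closedBall' volume c hr, finrank_euclideanSpace_fin, mul_comm (kap n),
    ENNReal.ofReal_mul (by positivity), kap, ENNReal.ofReal_toReal measure_closedBall_lt_top.ne]

lemma econs_apply_zero {n : ℕ} (t : ℝ) (y : EuclideanSpace ℝ (Fin n)) : econs t y 0 = t := by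
  simp [econs]

lemma econs_add {n : ℕ} (t s : ℝ) (y z : EuclideanSpace ℝ (Fin n)) :
    econs t y + econs s z = econs (t + s) (y + z) := by
  ext i
  refine Fin.cases ?_ (fun j => ?_) i <;> simp [econs]

lemma smul_econs {n : ℕ} (a t : ℝ) (y : EuclideanSpace ℝ (Fin n)) :
    a • econs t y = econs (a * t) (a • y) := by
  ext i
  refine Fin.cases ?_ (fun j => ?_) i <;> simp [econs]

lemma inner_econs {n : ℕ} (t s : ℝ) (y z : EuclideanSpace ℝ (Fin n)) :
    ⟪econs t y, econs s z⟫ = t * s + ⟪y, z⟫ := by
  simp [PiLp.inner_apply, Fin.sum_univ_succ, econs, mul_comm]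

lemma norm_econs_sq {n : ℕ} (t : ℝ) (y : EuclideanSpace ℝ (Fin n)) :
    ‖econs t y‖ ^ 2 = t ^ 2 + ‖y‖ ^ 2 := by
  rw [← real_inner_self_eq_norm_sq, ← real_inner_self_eq_norm_sq, inner_econs, sq]

lemma measurePreserving_econs (n : ℕ) :
    MeasurePreserving (fun p : ℝ × EuclideanSpace ℝ (Fin n) => econs p.1 p.2)
      (volume.prod volume) volume := by
  have h1 : MeasurePreserving (Prod.map (id : ℝ → ℝ)
      (WithLp.ofLp : EuclideanSpace ℝ (Fin n) → Fin n → ℝ)) (volume.prod volume)
      (volume.prod volume) :=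
    (MeasurePreserving.id volume).prod (PiLp.volume_preserving_ofLp (Fin n))
  have h2 : MeasurePreserving
      (MeasurableEquiv.piFinSuccAbove (fun _ : Fin (n + 1) => ℝ) 0).symm
      (volume.prod volume) volume :=
    (volume_preserving_piFinSuccAbove (fun _ : Fin (n + 1) => ℝ) 0).symm _
  have h3 := ((PiLp.volume_preserving_toLp (Fin (n + 1))).comp h2).comp h1
  have he : (fun p : ℝ × EuclideanSpace ℝ (Fin n) => econs p.1 p.2)
      = (WithLp.toLp 2 ∘ ⇑(MeasurableEquiv.piFinSuccAbove
        (fun _ : Fin (n + 1) => ℝ) 0).symm) ∘ Prod.map id WithLp.ofLp := by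
    funext p
    simp [econs, MeasurableEquiv.piFinSuccAbove_symm_apply]
    rfl
  rw [he]
  exact h3

lemma measurableEmbedding_econs (n : ℕ) :
    MeasurableEmbedding (fun p : ℝ × EuclideanSpace ℝ (Fin n) => econs p.1 p.2) := by
  refine MeasurableEmbedding.of_measurable_inverse
    (g := fun x : EuclideanSpace ℝ (Fin (n + 1)) => (x 0, etail n x))
    (measurePreserving_econs n).measurable ?_ ?_ ?_
  · convert MeasurableSet.univ using 1
    exact eq_univ_of_forall fun x => ⟨(x 0, etail n x), econs_etail x⟩
  · exact ((by fun_prop : Continuous fun x : EuclideanSpace ℝ (Fin (n + 1)) => x 0).prodMk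
      (etail n).continuous_of_finiteDimensional).measurable
  · intro p
    simp [etail_econs, econs_apply_zero]

lemma lintegral_econs {n : ℕ} {f : EuclideanSpace ℝ (Fin (n + 1)) → ℝ≥0∞} (hf : Measurable f) :
    ∫⁻ x, f x = ∫⁻ t : ℝ, ∫⁻ y : EuclideanSpace ℝ (Fin n), f (econs t y) := by
  rw [← (measurePreserving_econs n).lintegral_comp hf]
  exact lintegral_prod _ (hf.comp (measurePreserving_econs n).measurable).aemeasurable

/-- The set with round cross-sections over `I`. -/
def roundSet {n : ℕ} (I : Set ℝ) (c : ℝ → EuclideanSpace ℝ (Fin n)) (r : ℝ → ℝ) :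
    Set (EuclideanSpace ℝ (Fin (n + 1))) :=
  {x | x 0 ∈ I ∧ ‖etail n x - c (x 0)‖ ≤ r (x 0)}

lemma mem_roundSet {n : ℕ} {I : Set ℝ} {c : ℝ → EuclideanSpace ℝ (Fin n)} {r : ℝ → ℝ}
    {t : ℝ} {y : EuclideanSpace ℝ (Fin n)} :
    econs t y ∈ roundSet I c r ↔ t ∈ I ∧ y ∈ closedBall (c t) (r t) := by
  simp [roundSet, econs_apply_zero, etail_econs, dist_eq_norm]

lemma lintegral_roundSet {n : ℕ} {I : Set ℝ} (hI : MeasurableSet I)
    {c : ℝ → EuclideanSpace ℝ (Fin n)} {r : ℝ → ℝ} (hS : MeasurableSet (roundSet I c r))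
    {f : EuclideanSpace ℝ (Fin (n + 1)) → ℝ≥0∞} (hf : Measurable f) :
    ∫⁻ x in roundSet I c r, f x =
      ∫⁻ t in I, ∫⁻ y in closedBall (c t) (r t), f (econs t y) := by
  rw [← lintegral_indicator hS, lintegral_econs (hf.indicator hS), ← lintegral_indicator hI]
  refine lintegral_congr fun t => ?_
  by_cases ht : t ∈ I
  · rw [indicator_of_mem ht, ← lintegral_indicator measurableSet_closedBall]
    refine lintegral_congr fun y => ?_
    by_cases hy : y ∈ closedBall (c t) (r t)
    · rw [indicator_of_mem (mem_roundSet.2 ⟨ht, hy⟩), indicator_of_mem hy]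
    · rw [indicator_of_notMem (fun h => hy (mem_roundSet.1 h).2), indicator_of_notMem hy]
  · rw [indicator_of_notMem ht]
    simp [indicator, mem_roundSet, ht]

lemma integral_roundSet {n : ℕ} {I : Set ℝ} (hI : MeasurableSet I)
    {c : ℝ → EuclideanSpace ℝ (Fin n)} {r : ℝ → ℝ} (hS : MeasurableSet (roundSet I c r))
    {f : EuclideanSpace ℝ (Fin (n + 1)) → ℝ} (hf : IntegrableOn f (roundSet I c r)) :
    ∫ x in roundSet I c r, f x =
      ∫ t in I, ∫ y in closedBall (c t) (r t), f (econs t y) := by
  have hg : Integrable ((roundSet I c r).indicator f) := hf.integrable_indicator hS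
  have hcomp : Integrable (fun p : ℝ × EuclideanSpace ℝ (Fin n) =>
      (roundSet I c r).indicator f (econs p.1 p.2)) (volume.prod volume) :=
    ((measurePreserving_econs n).integrable_comp_emb (measurableEmbedding_econs n)).2 hg
  rw [← integral_indicator hS, ← (measurePreserving_econs n).integral_comp
    (measurableEmbedding_econs n), integral_prod _ hcomp, ← integral_indicator hI]
  refine integral_congr_ae (Filter.Eventually.of_forall fun t => ?_)
  by_cases ht : t ∈ I
  · simp only [indicator_of_mem ht]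
    rw [← integral_indicator measurableSet_closedBall]
    refine integral_congr_ae (Filter.Eventually.of_forall fun y => ?_)
    by_cases hy : y ∈ closedBall (c t) (r t)
    · simp only [indicator_of_mem (mem_roundSet.2 ⟨ht, hy⟩), indicator_of_mem hy]
    · simp only [indicator_of_notMem (fun h => hy (mem_roundSet.1 h).2), indicator_of_notMem hy]
  · simp only [indicator_of_notMem ht]
    simp [indicator, mem_roundSet, ht]

/-- The distribution of the radial coordinate. -/
lemma lintegral_norm {n : ℕ} (hn : 0 < n) {h : ℝ → ℝ≥0∞} (hh : Measurable h) :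
    ∫⁻ x : EuclideanSpace ℝ (Fin n), h ‖x‖ =
      ∫⁻ u in Ioi (0 : ℝ), ENNReal.ofReal (n * kap n * u ^ (n - 1)) * h u := by
  have hκ := kap_pos n
  have key : Measure.map (fun x : EuclideanSpace ℝ (Fin n) => ‖x‖) volume =
      (volume.restrict (Ioi (0 : ℝ))).withDensity
        fun u => ENNReal.ofReal (n * kap n * u ^ (n - 1)) := by
    have hK : IsFiniteMeasureOnCompacts
        (Measure.map (fun x : EuclideanSpace ℝ (Fin n) => ‖x‖) volume) := by
      refine ⟨fun K hK => ?_⟩
      rw [Measure.map_apply continuous_norm.measurable hK.measurableSet]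
      obtain ⟨R, hR⟩ := hK.isBounded.subset_closedBall 0
      refine lt_of_le_of_lt (measure_mono (t := closedBall 0 R) fun x hx => ?_)
        measure_closedBall_lt_top
      simpa using hR hx
    refine Measure.ext_of_Ioc _ _ fun a b hab => ?_
    rw [Measure.map_apply continuous_norm.measurable measurableSet_Ioc,
      withDensity_apply _ measurableSet_Ioc, Measure.restrict_restrict measurableSet_Ioc]
    have hval : ∀ v : ℝ, volume {x : EuclideanSpace ℝ (Fin n) | ‖x‖ ≤ v}
        = ENNReal.ofReal (kap n * max v 0 ^ n) := by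
      intro v
      rcases lt_or_ge v 0 with hv | hv
      · rw [max_eq_right hv.le, zero_pow hn.ne', mul_zero, ENNReal.ofReal_zero]
        convert measure_empty (μ := volume)
        ext x
        simp only [mem_ofPred_eq, mem_empty_iff_false, iff_false, not_le]
        exact lt_of_lt_of_le hv (norm_nonneg x)
      · rw [max_eq_left hv, ← volume_closedBall_eq 0 hv]
        congr 1
        ext x
        simp
    have hdiff : (fun x : EuclideanSpace ℝ (Fin n) => ‖x‖) ⁻¹' Ioc a b
        = {x | ‖x‖ ≤ b} \ {x | ‖x‖ ≤ a} := by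
      ext x
      simp [and_comm]
    have hsub : {x : EuclideanSpace ℝ (Fin n) | ‖x‖ ≤ a} ⊆ {x | ‖x‖ ≤ b} :=
      fun x (hx : ‖x‖ ≤ a) => (hx.trans hab.le : ‖x‖ ≤ b)
    rw [hdiff, measure_sdiff hsub
      ((measurableSet_le continuous_norm.measurable measurable_const).nullMeasurableSet)
      (by rw [hval]; exact ENNReal.ofReal_ne_top), hval, hval,
      ← ENNReal.ofReal_sub _ (by positivity)]
    rcases le_or_gt b 0 with hb | hb
    · have : Ioc a b ∩ Ioi (0 : ℝ) = ∅ := by
        ext u; simp; intros; linarith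
      rw [this, Measure.restrict_empty, lintegral_zero_measure, max_eq_right hb,
        max_eq_right (hab.le.trans hb), sub_self, ENNReal.ofReal_zero]
    have hset : Ioc a b ∩ Ioi (0 : ℝ) = Ioc (max a 0) b := by
      ext u; simp
    have hle : max a 0 ≤ b := max_le hab.le hb.le
    rw [hset, max_eq_left hb.le, ← ofReal_integral_eq_lintegral_ofReal
      ((Continuous.integrableOn_Ioc (by fun_prop)))
      ((ae_restrict_mem measurableSet_Ioc).mono fun u hu => by
        have : 0 ≤ u := le_trans (le_max_right a 0) hu.1.le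
        positivity),
      ← intervalIntegral.integral_of_le hle]
    congr 1
    rw [intervalIntegral.integral_eq_sub_of_hasDerivAt (f := fun u => kap n * u ^ n)
      (fun u _ => by
        have := (hasDerivAt_pow n u).const_mul (kap n)
        refine this.congr_deriv ?_
        ring) ((Continuous.intervalIntegrable (by fun_prop)) _ _)]
  rw [← lintegral_map hh continuous_norm.measurable, key,
    lintegral_withDensity_eq_lintegral_mul _ (by fun_prop) hh]
  rfl

end Vale.Agent.P237R
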