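import Vale.Agent.P237R.Slicing

/-!
# Points of the projection body from bounded test functions
-/

namespace Vale.Agent.P237R

open MeasureTheory Set Metric Filter Topology Vale.Agent.P237
open scoped RealInnerProductSpace ENNReal

/-- Points obtained from a test function with values in `[-1, 1]`. -/
def Calib {n : ℕ} (K : Set (EuclideanSpace ℝ (Fin n))) : Set (EuclideanSpace ℝ (Fin n)) :=
  {y | ∃ Λ : EuclideanSpace ℝ (Fin n) → ℝ, Continuous Λ ∧ (∀ x, |Λ x| ≤ 1) ∧
    ∀ w, HasDerivAt (fun ε : ℝ => ∫ x in K, Λ (x + ε • w)) (2 * ⟪w, y⟫) 0}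

lemma projVolume_ne_top {n : ℕ} {u : EuclideanSpace ℝ (Fin (n + 1))} (hu : ‖u‖ = 1)
    {K : Set (EuclideanSpace ℝ (Fin (n + 1)))} (hK : IsCompact K) : projVolume K u ≠ ⊤ := by
  obtain ⟨R, hR⟩ := exists_align u
  rw [hu, one_smul] at hR
  rw [projVolume_eq hu R hR hK]
  exact ((hK.image R.continuous).image
    (etail n).continuous_of_finiteDimensional).measure_lt_top.ne

lemma projBody_mono {n : ℕ} {K L : Set (EuclideanSpace ℝ (Fin n))} (h : K ⊆ L) :
    projBody K ⊆ projBody L := by
  intro y hy u hu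
  refine (hy u hu).trans (measure_mono ?_)
  rintro z ⟨x, hx, s, hs, rfl⟩
  exact ⟨x, h hx, s, hs, rfl⟩

lemma volume_sdiff_shift_le {n : ℕ} {K : Set (EuclideanSpace ℝ (Fin (n + 1)))}
    (hK : IsCompact K) (hc : Convex ℝ K) {u : EuclideanSpace ℝ (Fin (n + 1))} (hu : ‖u‖ = 1)
    (ε : ℝ) :
    volume (K \ (fun x => x - ε • u) ⁻¹' K) ≤ ENNReal.ofReal |ε| * projVolume K u := by
  obtain ⟨R, hR⟩ := exists_align u
  rw [hu, one_smul] at hR
  rw [projVolume_eq hu R hR hK]
  have hpre : R '' (K \ (fun x => x - ε • u) ⁻¹' K)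
      = R '' K \ (fun x => x - ε • e0 n) ⁻¹' (R '' K) := by
    rw [image_sdiff R.injective]
    congr 1
    ext z
    simp only [mem_image, mem_preimage]
    constructor
    · rintro ⟨x, hx, rfl⟩
      exact ⟨x - ε • u, hx, by rw [map_sub, map_smul, hR]⟩
    · rintro ⟨x, hx, hxz⟩
      refine ⟨x + ε • u, by simpa using hx, ?_⟩
      rw [map_add, map_smul, hR, hxz]; abel
  have hvol : ∀ S : Set (EuclideanSpace ℝ (Fin (n + 1))), volume (R '' S) = volume S := by
    intro S
    change volume (R.toMeasurableEquiv '' S) = _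
    rw [MeasurableEquiv.image_eq_preimage_symm]
    exact (R.symm.measurePreserving).measure_preimage_equiv (f := R.toMeasurableEquiv.symm) _
  have hK' := hK.image R.continuous
  have h := volume_le_inter_shift hK' (hc.linear_image R.toLinearEquiv.toLinearMap) ε
  rw [← hvol, hpre]
  have hms : MeasurableSet ((fun x => x - ε • e0 n) ⁻¹' (R '' K)) :=
    (by fun_prop : Measurable fun x : EuclideanSpace ℝ (Fin (n + 1)) => x - ε • e0 n)
      hK'.measurableSet
  rw [← measure_inter_add_sdiff (R '' K) hms] at h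
  refine (ENNReal.add_le_add_iff_left ?_).1 h
  exact (lt_of_le_of_lt (measure_mono inter_subset_left) hK'.measure_lt_top).ne

lemma setIntegral_sub_le {α : Type*} [MeasurableSpace α] {μ : Measure α} {A B : Set α}
    (hA : MeasurableSet A) (hB : MeasurableSet B) {f : α → ℝ} (hf : ∀ x, |f x| ≤ 1)
    (hiA : IntegrableOn f A μ) (hiB : IntegrableOn f B μ) (fA : μ A ≠ ⊤) (fB : μ B ≠ ⊤) :
    |(∫ x in A, f x ∂μ) - ∫ x in B, f x ∂μ| ≤ μ.real (A \ B) + μ.real (B \ A) := by
  rw [← integral_inter_add_sdiff hB hiA, ← integral_inter_add_sdiff hA hiB, inter_comm B A]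
  have h1 : ‖∫ x in A \ B, f x ∂μ‖ ≤ 1 * μ.real (A \ B) :=
    norm_setIntegral_le_of_norm_le_const (lt_of_le_of_lt (measure_mono sdiff_subset) fA.lt_top)
      (fun x _ => by simpa using hf x)
  have h2 : ‖∫ x in B \ A, f x ∂μ‖ ≤ 1 * μ.real (B \ A) :=
    norm_setIntegral_le_of_norm_le_const (lt_of_le_of_lt (measure_mono sdiff_subset) fB.lt_top)
      (fun x _ => by simpa using hf x)
  rw [Real.norm_eq_abs, one_mul] at h1 h2
  refine le_trans (le_of_eq ?_) ((abs_sub _ _).trans (add_le_add h1 h2))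
  congr 1
  ring

theorem calib_subset_projBody {n : ℕ} {K : Set (EuclideanSpace ℝ (Fin (n + 1)))}
    (hK : IsCompact K) (hc : Convex ℝ K) : Calib K ⊆ projBody K := by
  rintro y ⟨Λ, hΛ, hb, hd⟩ u hu
  set P := (projVolume K u).toReal with hP
  rw [← ENNReal.ofReal_toReal (projVolume_ne_top hu hK)]
  refine ENNReal.ofReal_le_ofReal ?_
  have hshift : ∀ ε : ℝ, ∫ x in K, Λ (x + ε • u) = ∫ x in (fun x => x - ε • u) ⁻¹' K, Λ x := by
    intro ε
    rw [← (measurePreserving_add_right volume (ε • u)).setIntegral_preimage_emb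
      (Homeomorph.addRight (ε • u)).measurableEmbedding Λ ((fun x => x - ε • u) ⁻¹' K)]
    have : (fun x => x + ε • u) ⁻¹' ((fun x => x - ε • u) ⁻¹' K) = K := by
      ext x; simp
    rw [this]
  have hpre : ∀ ε : ℝ, IsCompact ((fun x => x - ε • u) ⁻¹' K) := fun ε =>
    (Homeomorph.subRight (ε • u)).isCompact_preimage.2 hK
  have hlip : ∀ ε : ℝ,
      |(∫ x in K, Λ (x + ε • u)) - ∫ x in K, Λ (x + (0 : ℝ) • u)| ≤ 2 * P * |ε| := by
    intro ε
    have hvol : volume ((fun x => x - ε • u) ⁻¹' K) = volume K :=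
      (measurePreserving_sub_right volume (ε • u)).measure_preimage hK.measurableSet.nullMeasurableSet
    rw [hshift, show ∫ x in K, Λ (x + (0 : ℝ) • u) = ∫ x in K, Λ x by simp]
    refine (setIntegral_sub_le (hpre ε).measurableSet hK.measurableSet hb
      (hΛ.continuousOn.integrableOn_compact (hpre ε)) (hΛ.continuousOn.integrableOn_compact hK)
      (hpre ε).measure_lt_top.ne hK.measure_lt_top.ne).trans ?_
    have h1 := volume_sdiff_shift_le hK hc hu ε
    have h2 : volume ((fun x => x - ε • u) ⁻¹' K \ K)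
        = volume (K \ (fun x => x - ε • u) ⁻¹' K) := by
      rw [← sdiff_inter_self_eq_sdiff, ← sdiff_inter_self_eq_sdiff (t := (fun x => x - ε • u) ⁻¹' K),
        measure_sdiff inter_subset_right ((hK.measurableSet.inter
          (hpre ε).measurableSet).nullMeasurableSet)
          (lt_of_le_of_lt (measure_mono inter_subset_left) hK.measure_lt_top).ne,
        measure_sdiff inter_subset_right (((hpre ε).measurableSet.inter
          hK.measurableSet).nullMeasurableSet)
          (lt_of_le_of_lt (measure_mono inter_subset_right) hK.measure_lt_top).ne, hvol, inter_comm]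
    rw [measureReal_def, measureReal_def, h2]
    have h3 := ENNReal.toReal_mono (ENNReal.mul_ne_top ENNReal.ofReal_ne_top
      (projVolume_ne_top hu hK)) h1
    rw [ENNReal.toReal_mul, ENNReal.toReal_ofReal (abs_nonneg _), ← hP] at h3
    nlinarith
  have := (hd u).le_of_lip' (C := 2 * P) (by positivity) (Eventually.of_forall fun ε => by
    simpa using hlip ε)
  rw [Real.norm_eq_abs] at this
  linarith [le_abs_self (2 * ⟪u, y⟫)]

theorem calib_map {n : ℕ} {K : Set (EuclideanSpace ℝ (Fin n))} (hK : MeasurableSet K)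
    (T : EuclideanSpace ℝ (Fin n) ≃ₗ[ℝ] EuclideanSpace ℝ (Fin n))
    {y : EuclideanSpace ℝ (Fin n)} (hy : y ∈ Calib K) :
    |LinearMap.det T.toLinearMap| • T.symm.toLinearMap.adjoint y ∈ Calib (T '' K) := by
  obtain ⟨Λ, hΛ, hb, hd⟩ := hy
  refine ⟨Λ ∘ T.symm, hΛ.comp T.symm.toLinearMap.continuous_of_finiteDimensional,
    fun x => hb _, fun w => ?_⟩
  have key : ∀ ε : ℝ, ∫ x in T '' K, (Λ ∘ T.symm) (x + ε • w)
      = |LinearMap.det T.toLinearMap| * ∫ x in K, Λ (x + ε • T.symm w) := by
    intro ε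
    have h := integral_image_eq_integral_abs_det_fderiv_smul volume hK
      (fun x _ => (T.toContinuousLinearEquiv.toContinuousLinearMap.hasFDerivAt
        (x := x)).hasFDerivWithinAt) T.injective.injOn
      (fun x => (Λ ∘ T.symm) (x + ε • w))
    simp only [smul_eq_mul, integral_const_mul] at h
    refine h.trans ?_
    congr 1
    refine integral_congr_ae (Eventually.of_forall fun x => ?_)
    simp
  simp only [key]
  refine ((hd (T.symm w)).const_mul _).congr_deriv ?_
  rw [inner_smul_right, LinearMap.adjoint_inner_right]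
  simp only [LinearEquiv.coe_coe]
  ring

lemma isClosed_projBody {n : ℕ} (K : Set (EuclideanSpace ℝ (Fin n))) : IsClosed (projBody K) := by
  have : projBody K = ⋂ u ∈ {u : EuclideanSpace ℝ (Fin n) | ‖u‖ = 1},
      (fun y => ENNReal.ofReal ⟪u, y⟫) ⁻¹' Iic (projVolume K u) := by
    ext y; simp [projBody]
  rw [this]
  exact isClosed_biInter fun u _ => isClosed_Iic.preimage
    (ENNReal.continuous_ofReal.comp (by fun_prop))

lemma inner_le_of_mem_projBody {n : ℕ} {K : Set (EuclideanSpace ℝ (Fin (n + 1)))}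
    (hK : IsCompact K) {y : EuclideanSpace ℝ (Fin (n + 1))} (hy : y ∈ projBody K)
    {u : EuclideanSpace ℝ (Fin (n + 1))} (hu : ‖u‖ = 1) :
    ⟪u, y⟫ ≤ (projVolume K u).toReal := by
  have h := hy u hu
  rw [← ENNReal.ofReal_toReal (projVolume_ne_top hu hK)] at h
  exact (ENNReal.ofReal_le_ofReal_iff ENNReal.toReal_nonneg).1 h

lemma convex_projBody {n : ℕ} {K : Set (EuclideanSpace ℝ (Fin (n + 1)))} (hK : IsCompact K) :
    Convex ℝ (projBody K) := by
  intro a ha b hb s t hs ht hst u hu
  rw [← ENNReal.ofReal_toReal (projVolume_ne_top hu hK)]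
  refine ENNReal.ofReal_le_ofReal ?_
  rw [inner_add_right, real_inner_smul_right, real_inner_smul_right]
  have h1 := mul_le_mul_of_nonneg_left (inner_le_of_mem_projBody hK ha hu) hs
  have h2 := mul_le_mul_of_nonneg_left (inner_le_of_mem_projBody hK hb hu) ht
  calc s * ⟪u, a⟫ + t * ⟪u, b⟫
      ≤ s * (projVolume K u).toReal + t * (projVolume K u).toReal := add_le_add h1 h2
    _ = (projVolume K u).toReal := by rw [← add_mul, hst, one_mul]

lemma isCompact_projBody {n : ℕ} {K : Set (EuclideanSpace ℝ (Fin (n + 1)))} (hK : IsCompact K) :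
    IsCompact (projBody K) := by
  refine Metric.isCompact_of_isClosed_isBounded (isClosed_projBody K) ?_
  set M := ∑ i : Fin (n + 1), ((projVolume K (EuclideanSpace.single i 1)).toReal
      + (projVolume K (-EuclideanSpace.single i 1)).toReal) with hM
  refine (isBounded_closedBall (x := 0) (r := M)).subset fun y hy => ?_
  rw [mem_closedBall_zero_iff]
  have hy' : y = ∑ i, y i • EuclideanSpace.single i (1 : ℝ) := by
    conv_lhs => rw [← (EuclideanSpace.basisFun (Fin (n + 1)) ℝ).sum_repr y]
    simp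
  calc ‖y‖ = ‖∑ i, y i • EuclideanSpace.single i (1 : ℝ)‖ := by rw [← hy']
    _ ≤ ∑ i, |y i| := by
        refine (norm_sum_le _ _).trans (le_of_eq ?_)
        simp [norm_smul]
    _ ≤ M := by
        refine Finset.sum_le_sum fun i _ => ?_
        have h1 := inner_le_of_mem_projBody hK hy (u := EuclideanSpace.single i 1) (by simp)
        have h2 := inner_le_of_mem_projBody hK hy (u := -EuclideanSpace.single i 1) (by simp)
        rw [inner_neg_left] at h2
        simp only [EuclideanSpace.inner_single_left, map_one, one_mul] at h1 h2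
        have p1 : 0 ≤ (projVolume K (EuclideanSpace.single i 1)).toReal := ENNReal.toReal_nonneg
        have p2 : 0 ≤ (projVolume K (-EuclideanSpace.single i 1)).toReal := ENNReal.toReal_nonneg
        rcases abs_cases (y i) with ⟨h, _⟩ | ⟨h, _⟩ <;> rw [h] <;> linarith

end Vale.Agent.P237R
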