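import Vale.Agent.P237R.Limit

/-!
# The volume bound in the transported variable
-/

namespace Vale.Agent.P237R

open MeasureTheory Set Metric Filter Topology Vale.Agent.P237
open scoped RealInnerProductSpace ENNReal NNReal

/-- The secant of the tilt. -/
noncomputable def sec (s : ℝ) : ℝ := √(1 + s ^ 2)

lemma sec_sq (s : ℝ) : sec s ^ 2 = 1 + s ^ 2 := Real.sq_sqrt (by positivity)

lemma sec_pos (s : ℝ) : 0 < sec s := Real.sqrt_pos.2 (by positivity)

lemma one_le_sec (s : ℝ) : 1 ≤ sec s := Real.one_le_sqrt.2 (by nlinarith [sq_nonneg s])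

lemma hasDerivAt_sec (s : ℝ) : HasDerivAt sec (s / sec s) s := by
  have h0 : HasDerivAt (fun y : ℝ => 1 + y ^ 2) (2 * s) s := by
    simpa using (hasDerivAt_pow 2 s).const_add (1 : ℝ)
  refine (h0.sqrt (by positivity)).congr_deriv ?_
  rw [show √(1 + s ^ 2) = sec s from rfl]
  field_simp

lemma wK_zero_of_one_le {n : ℕ} (hn : 2 ≤ n) {x : ℝ} (hx : 1 ≤ |x|) : wK n x = 0 := by
  simp [wK, gK_zero_of_one_le hn hx]

/-- The second moment density. -/
noncomputable def vK (n : ℕ) (x : ℝ) : ℝ := x ^ 2 * wK n x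

lemma vK_nonneg {n : ℕ} (hn : 2 ≤ n) (x : ℝ) : 0 ≤ vK n x :=
  mul_nonneg (sq_nonneg x) (wK_nonneg hn x)

lemma vK_zero_of_one_le {n : ℕ} (hn : 2 ≤ n) {x : ℝ} (hx : 1 ≤ |x|) : vK n x = 0 := by
  simp [vK, wK_zero_of_one_le hn hx]

lemma tangent_le (n : ℕ) {v A : ℝ} (hv : 0 < v) (hA : 0 < A) :
    ((n : ℝ) + 1) / A ^ n - n * v / A ^ (n + 1) ≤ (v ^ n)⁻¹ := by
  obtain ⟨x, hx, rfl⟩ : ∃ x, 0 < x ∧ v = x * A := ⟨v / A, div_pos hv hA, by field_simp⟩
  have h := one_add_mul_le_pow (a := x⁻¹ - 1) (by have := inv_pos.2 hx; linarith) n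
  rw [add_sub_cancel] at h
  have hn : (0 : ℝ) ≤ n := n.cast_nonneg
  have h1 : 1 - x ≤ x⁻¹ - 1 := by
    have : x⁻¹ * x = 1 := inv_mul_cancel₀ hx.ne'
    nlinarith [sq_nonneg (x - 1), inv_pos.2 hx]
  have h2 : ((n : ℝ) + 1) - n * x ≤ (x ^ n)⁻¹ := by
    rw [← inv_pow]; nlinarith
  calc ((n : ℝ) + 1) / A ^ n - n * (x * A) / A ^ (n + 1)
      = (((n : ℝ) + 1) - n * x) * (A ^ n)⁻¹ := by rw [pow_succ]; field_simp
    _ ≤ (x ^ n)⁻¹ * (A ^ n)⁻¹ := mul_le_mul_of_nonneg_right h2 (by positivity)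
    _ = ((x * A) ^ n)⁻¹ := by rw [mul_pow, mul_inv]

lemma amgm_le {n : ℕ} (hn : 1 ≤ n) {a b : ℝ} (ha : 0 < a) (hb : 0 ≤ b) :
    (n : ℝ) * (a ^ (n - 1) * b) ≤ ((n : ℝ) - 1) * a ^ n + b ^ n := by
  obtain ⟨k, rfl⟩ : ∃ k, n = k + 1 := ⟨n - 1, by omega⟩
  have h := one_add_mul_le_pow (a := b / a - 1) (by have := div_nonneg hb ha.le; linarith) (k + 1)
  rw [add_sub_cancel, div_pow, le_div_iff₀ (pow_pos ha _)] at h
  simp only [Nat.add_sub_cancel]
  rw [pow_succ a k] at h ⊢
  field_simp at h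
  push_cast at h ⊢
  nlinarith [h]

/-- The tail formula at a fixed height of the ball. -/
lemma lintegral_tail {n : ℕ} (hn : 2 ≤ n) {T s : ℝ} (hT0 : T ≠ 0) (hT : |T| < 1) (hs : 0 ≤ s) :
    ∫⁻ σ in Ioi s, ENNReal.ofReal (n * σ * T ^ 2 * wK n (sec σ * T))
      = ENNReal.ofReal (gK n (sec s * T)) := by
  have hT2 : 0 < T ^ 2 := by positivity
  have hT1 : T ^ 2 < 1 := by nlinarith [abs_nonneg T, sq_abs T]
  set m := √(1 / T ^ 2 - 1) with hm
  have hm0 : 0 ≤ m := Real.sqrt_nonneg _
  have hpos : 0 ≤ 1 / T ^ 2 - 1 := by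
    rw [sub_nonneg, le_div_iff₀ hT2]; linarith
  have hm2 : (1 + m ^ 2) * T ^ 2 = 1 := by
    rw [hm, Real.sq_sqrt hpos]; field_simp; ring
  have hsq : ∀ σ, (sec σ * T) ^ 2 = (1 + σ ^ 2) * T ^ 2 := fun σ => by rw [mul_pow, sec_sq]
  have hout : ∀ σ, m ≤ σ → 1 ≤ |sec σ * T| := fun σ hσ => by
    rw [← one_le_sq_iff_one_le_abs, hsq, ← hm2]
    nlinarith [mul_le_mul hσ hσ hm0 (hm0.trans hσ)]
  rcases le_or_gt m s with hms | hms
  · rw [gK_zero_of_one_le hn (hout s hms), ENNReal.ofReal_zero]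
    refine setLIntegral_eq_zero measurableSet_Ioi fun σ hσ => ?_
    simp [wK_zero_of_one_le hn (hout σ (hms.trans (le_of_lt hσ)))]
  have hsec : Continuous sec := continuous_iff_continuousAt.2 fun σ =>
    (hasDerivAt_sec σ).continuousAt
  rw [← Ioc_union_Ioi_eq_Ioi hms.le, lintegral_union measurableSet_Ioi Ioc_disjoint_Ioi_same,
    setLIntegral_eq_zero (s := Ioi m) measurableSet_Ioi
      (fun σ hσ => by simp [wK_zero_of_one_le hn (hout σ (le_of_lt hσ))]), add_zero]
  have hd : ∀ σ ∈ Ioo s m, HasDerivAt (fun σ => -gK n (sec σ * T))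
      (n * σ * T ^ 2 * wK n (sec σ * T)) σ := by
    intro σ hσ
    have hlt : |sec σ * T| < 1 := by
      rw [← sq_lt_one_iff_abs_lt_one, hsq, ← hm2]
      refine mul_lt_mul_of_pos_right ?_ hT2
      nlinarith [hσ.1, hσ.2]
    refine (((hasDerivAt_gK hn hlt.ne).comp σ ((hasDerivAt_sec σ).mul_const T)).neg).congr_deriv ?_
    have := (sec_pos σ).ne'
    field_simp
  have hnn : ∀ σ ∈ Ioo s m, 0 ≤ (n : ℝ) * σ * T ^ 2 * wK n (sec σ * T) := fun σ hσ => by
    have := wK_nonneg hn (sec σ * T)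
    have : 0 ≤ σ := hs.trans hσ.1.le
    positivity
  have hc : ContinuousOn (fun σ => -gK n (sec σ * T)) (Icc s m) :=
    ((continuous_gK n).comp (hsec.mul continuous_const)).neg.continuousOn
  have hi := intervalIntegral.integrableOn_deriv_of_nonneg hc hd hnn
  rw [← ofReal_integral_eq_lintegral_ofReal hi ?_, ← intervalIntegral.integral_of_le hms.le,
    intervalIntegral.integral_eq_sub_of_hasDerivAt_of_le hms.le hc hd
      ((intervalIntegrable_iff_integrableOn_Ioc_of_le hms.le).2 hi)]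
  · rw [gK_zero_of_one_le hn (hout m le_rfl)]
    simp
  · filter_upwards [ae_restrict_mem measurableSet_Ioc] with σ hσ
    have := wK_nonneg hn (sec σ * T)
    have : 0 ≤ σ := hs.trans hσ.1.le
    positivity

variable {n : ℕ} (B : Body n)

/-- The ratio of the radii. -/
noncomputable def ratio (t : ℝ) : ℝ := √(1 - B.T t ^ 2) / B.r t

lemma one_sub_T_sq_pos {t : ℝ} (ht : t ∈ Ioo B.a B.b) : 0 < 1 - B.T t ^ 2 := by
  have hT := (B.T_spec ht).1
  nlinarith [hT.1, hT.2]

lemma ratio_pos {t : ℝ} (ht : t ∈ Ioo B.a B.b) : 0 < ratio B t :=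
  div_pos (Real.sqrt_pos.2 (one_sub_T_sq_pos B ht)) (B.r_pos t ht)

lemma continuousOn_ratio : ContinuousOn (ratio B) (Ioo B.a B.b) :=
  (continuousOn_const.sub (B.continuousOn_T.pow 2)).sqrt.div B.continuousOn_r
    fun t ht => (B.r_pos t ht).ne'

lemma one_sub_om_sq (s : ℝ) {t : ℝ} (ht : t ∈ Ioo B.a B.b) :
    1 - B.om s t ^ 2 = (1 - (sec s * B.T t) ^ 2) / (1 - B.T t ^ 2) := by
  have h := one_sub_T_sq_pos B ht
  rw [Body.om, tau, mul_pow, mul_pow, div_pow, Real.sq_sqrt h.le, sec_sq]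
  field_simp
  ring

lemma gK_om (s : ℝ) {t : ℝ} (ht : t ∈ Ioo B.a B.b) :
    gK n (B.om s t) = gK n (sec s * B.T t) / √(1 - B.T t ^ 2) ^ (n - 1) := by
  rw [gK, gK, one_sub_om_sq B s ht, Real.sqrt_div' _ (one_sub_T_sq_pos B ht).le, div_pow,
    mul_div_assoc]

lemma rho_integrand (s : ℝ) {t : ℝ} (ht : t ∈ Ioo B.a B.b) :
    B.r t ^ (n - 1) * gK n (B.om s t)
      = ratio B t * (B.T' t * gK n (sec s * B.T t)) / B.scale := by
  have hr := B.r_pos t ht
  have ha := Real.sqrt_pos.2 (one_sub_T_sq_pos B ht)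
  have hl := B.scale_pos
  have hn := B.hn
  rw [gK_om B s ht, Body.T', ratio]
  generalize √(1 - B.T t ^ 2) = a at *
  obtain ⟨k, rfl⟩ : ∃ k, n = k + 1 := ⟨n - 1, by omega⟩
  simp only [Nat.add_sub_cancel, pow_succ]
  field_simp

lemma height_integrand (s : ℝ) {t : ℝ} (ht : t ∈ Ioo B.a B.b) :
    B.r t ^ n * B.om' s t * wK n (B.om s t)
      = s * ((ratio B t ^ n)⁻¹ * (B.T' t * wK n (sec s * B.T t))) := by
  have hr := B.r_pos t ht
  have h1 := one_sub_T_sq_pos B ht
  have ha := Real.sqrt_pos.2 h1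
  have hn := B.hn
  have hw : wK n (B.om s t) = wK n (sec s * B.T t) * (1 - B.T t ^ 2)
      / √(1 - B.T t ^ 2) ^ (n - 1) := by
    rw [wK, wK, gK_om B s ht, one_sub_om_sq B s ht, div_div_eq_mul_div]
    ring
  rw [hw, Body.om', ratio, div_pow, inv_div]
  generalize √(1 - B.T t ^ 2) = a at *
  obtain ⟨k, rfl⟩ : ∃ k, n = k + 1 := ⟨n - 1, by omega⟩
  simp only [Nat.add_sub_cancel, pow_succ]
  field_simp

lemma integral_T {f : ℝ → ℝ} (hf0 : ∀ x, 1 ≤ |x| → f x = 0)
    (hfi : IntegrableOn f (Ioc (-1) 1)) {c : ℝ} (hc : 1 ≤ c) :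
    IntegrableOn (fun t => B.T' t * f (c * B.T t)) (Ioo B.a B.b) ∧
      ∫ t in Ioo B.a B.b, B.T' t * f (c * B.T t) = (∫ x in Ioc (-1 : ℝ) 1, f x) / c := by
  have hz : ∀ x ∉ Ioc (-1 : ℝ) 1, f x = 0 := fun x hx => hf0 x <| by
    simp only [mem_Ioc, not_and_or, not_lt, not_le] at hx
    rcases hx with h | h
    · exact le_trans (by linarith) (neg_le_abs x)
    · exact le_trans h.le (le_abs_self x)
  have hf : Integrable f := hfi.integrable_of_forall_notMem_eq_zero hz
  have hd : ∀ t ∈ Ioo B.a B.b, HasDerivWithinAt B.T (B.T' t) (Ioo B.a B.b) t :=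
    fun t ht => (B.hasDerivAt_T ht).hasDerivWithinAt
  have heq : EqOn (fun t => |B.T' t| • f (c * B.T t)) (fun t => B.T' t * f (c * B.T t))
      (Ioo B.a B.b) := fun t ht => by
    simp [abs_of_pos (B.T'_pos ht)]
  constructor
  · have h := ((integrableOn_image_iff_integrableOn_abs_deriv_smul measurableSet_Ioo hd
      B.strictMonoOn_T.injOn (fun x => f (c * x))).1
        (hf.comp_mul_left' (by linarith : c ≠ 0)).integrableOn)
    exact h.congr_fun heq measurableSet_Ioo
  · rw [← setIntegral_congr_fun measurableSet_Ioo heq,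
      ← integral_image_eq_integral_abs_deriv_smul measurableSet_Ioo hd B.strictMonoOn_T.injOn
        (fun x => f (c * x)), B.image_T,
      setIntegral_eq_integral_of_forall_compl_eq_zero (fun x hx => hf0 _ ?_),
      Measure.integral_comp_mul_left f c, setIntegral_eq_integral_of_forall_compl_eq_zero hz,
      abs_of_pos (by positivity), smul_eq_mul, div_eq_inv_mul]
    have h1 : 1 ≤ |x| := by
      by_contra h
      exact hx (abs_lt.1 (not_le.1 h))
    rw [abs_mul, abs_of_pos (by linarith : (0 : ℝ) < c)]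
    nlinarith

lemma integrable_weighted {f φ : ℝ → ℝ} (hφ : ContinuousOn φ (Ioo B.a B.b))
    (hf0 : ∀ x, 1 ≤ |x| → f x = 0) (hfi : IntegrableOn f (Ioc (-1) 1)) {s : ℝ} (hs : 0 < s) :
    IntegrableOn (fun t => φ t * (B.T' t * f (sec s * B.T t))) (Ioo B.a B.b) := by
  obtain ⟨p, q, hp, hq, -, -, -, hout⟩ := exists_window B hs
  have hIcc : Icc p q ⊆ Ioo B.a B.b := Icc_subset_Ioo hp hq
  refine IntegrableOn.of_forall_sdiff_eq_zero
    (((integral_T B hf0 hfi (one_le_sec s)).1.mono_set hIcc).continuousOn_mul (hφ.mono hIcc)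
      isCompact_Icc) measurableSet_Ioo fun t ht => ?_
  have h2 := hout t ht.1 fun h => ht.2 (Ioc_subset_Icc_self h)
  have h3 : 1 - B.om s t ^ 2 < 0 := by nlinarith [sq_abs (B.om s t), abs_nonneg (B.om s t)]
  rw [one_sub_om_sq B s ht.1, div_neg_iff] at h3
  have h4 : 1 ≤ |sec s * B.T t| := by
    rw [← one_le_sq_iff_one_le_abs]
    rcases h3 with h | h
    · linarith [h.2, one_sub_T_sq_pos B ht.1]
    · linarith [h.1]
  simp [hf0 _ h4]

/-- Weighted integrals in the transported variable. -/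
noncomputable def mom (φ f : ℝ → ℝ) (s : ℝ) : ℝ :=
  ∫ t in Ioo B.a B.b, φ t * (B.T' t * f (sec s * B.T t))

lemma mom_pos_and_jensen {f : ℝ → ℝ} (hf : ∀ x, 0 ≤ f x) (hf0 : ∀ x, 1 ≤ |x| → f x = 0)
    (hfi : IntegrableOn f (Ioc (-1) 1)) (hm : 0 < ∫ x in Ioc (-1 : ℝ) 1, f x) {s : ℝ} (hs : 0 < s) :
    0 < mom B (ratio B) f s ∧
      ((∫ x in Ioc (-1 : ℝ) 1, f x) / sec s) *
        (((∫ x in Ioc (-1 : ℝ) 1, f x) / sec s) / mom B (ratio B) f s) ^ n
      ≤ mom B (fun t => (ratio B t ^ n)⁻¹) f s := by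
  obtain ⟨hHi, hH⟩ := integral_T B hf0 hfi (one_le_sec s)
  have hI : 0 < (∫ x in Ioc (-1 : ℝ) 1, f x) / sec s := div_pos hm (sec_pos s)
  set I := (∫ x in Ioc (-1 : ℝ) 1, f x) / sec s
  have hJi := integrable_weighted B (continuousOn_ratio B) hf0 hfi hs
  have hPi := integrable_weighted B (φ := fun t => (ratio B t ^ n)⁻¹)
    (((continuousOn_ratio B).pow n).inv₀ fun t ht => (pow_pos (ratio_pos B ht) n).ne') hf0 hfi hs
  have hnn : ∀ t ∈ Ioo B.a B.b, 0 ≤ ratio B t * (B.T' t * f (sec s * B.T t)) := fun t ht =>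
    mul_nonneg (ratio_pos B ht).le (mul_nonneg (B.T'_pos ht).le (hf _))
  have hJ : 0 < mom B (ratio B) f s := by
    refine (setIntegral_nonneg measurableSet_Ioo hnn).lt_of_ne fun h => hI.ne' ?_
    have h0 := (setIntegral_eq_zero_iff_of_nonneg_ae
      ((ae_restrict_mem measurableSet_Ioo).mono fun t ht => hnn t ht) hJi).1 h.symm
    rw [← hH]
    refine integral_eq_zero_of_ae ?_
    filter_upwards [h0, ae_restrict_mem measurableSet_Ioo] with t h1 h2
    exact (mul_eq_zero.1 h1).resolve_left (ratio_pos B h2).ne'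
  refine ⟨hJ, ?_⟩
  set J := mom B (ratio B) f s with hJdef
  set A := J / I with hA
  have hA0 : 0 < A := div_pos hJ hI
  have h : ∫ t in Ioo B.a B.b, (((n : ℝ) + 1) / A ^ n * (B.T' t * f (sec s * B.T t))
      - (n : ℝ) / A ^ (n + 1) * (ratio B t * (B.T' t * f (sec s * B.T t))))
      ≤ mom B (fun t => (ratio B t ^ n)⁻¹) f s := by
    refine setIntegral_mono_on ((hHi.const_mul _).sub (hJi.const_mul _)) hPi measurableSet_Ioo
      fun t ht => ?_
    have := mul_le_mul_of_nonneg_right (tangent_le n (ratio_pos B ht) hA0)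
      (mul_nonneg (B.T'_pos ht).le (hf (sec s * B.T t)))
    refine le_trans (le_of_eq ?_) this
    ring
  rw [integral_sub (hHi.const_mul _) (hJi.const_mul _), integral_const_mul, integral_const_mul,
    hH, show ∫ t in Ioo B.a B.b, ratio B t * (B.T' t * f (sec s * B.T t)) = J from rfl] at h
  refine le_trans (le_of_eq ?_) h
  rw [show I / J = A⁻¹ by rw [hA, inv_div], show J = A * I by rw [hA]; field_simp, inv_pow,
    pow_succ]
  field_simp
  ring

theorem core_ineq {s : ℝ} (hs : 0 < s) :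
    (kap n / sec s) ^ (n + 1) ≤ n * mom B (fun t => (ratio B t ^ n)⁻¹) (wK n) s *
      mom B (ratio B) (gK n) s ^ (n - 1) * mom B (ratio B) (vK n) s := by
  have hn := B.hn
  obtain ⟨hwi, -, hvi, hv⟩ := wK_facts hn
  have hgi : IntegrableOn (gK n) (Ioc (-1) 1) := (continuous_gK n).integrableOn_Ioc
  have hκ := kap_pos n
  have hn0 : (0 : ℝ) < n := by exact_mod_cast (by omega : 0 < n)
  obtain ⟨hJ1, hP⟩ := mom_pos_and_jensen B (gK_nonneg n) (fun x => gK_zero_of_one_le hn) hgi
    (by rw [setIntegral_gK hn]; exact hκ) hs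
  obtain ⟨hJ2, hQ⟩ := mom_pos_and_jensen B (vK_nonneg hn) (fun x => vK_zero_of_one_le hn) hvi
    (by simp only [vK]; rw [hv]; positivity) hs
  rw [setIntegral_gK hn] at hP
  simp only [show (∫ x in Ioc (-1 : ℝ) 1, vK n x) = kap n / n from hv] at hQ
  have hc := sec_pos s
  set J1 := mom B (ratio B) (gK n) s
  set J2 := mom B (ratio B) (vK n) s
  set a := kap n / sec s / J1 with ha
  set b := kap n / n / sec s / J2 with hb
  have hφ : ContinuousOn (fun t => (ratio B t ^ n)⁻¹) (Ioo B.a B.b) :=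
    ((continuousOn_ratio B).pow n).inv₀ fun t ht => (pow_pos (ratio_pos B ht) n).ne'
  have hsplit : mom B (fun t => (ratio B t ^ n)⁻¹) (wK n) s
      = ((n : ℝ) - 1) / n * mom B (fun t => (ratio B t ^ n)⁻¹) (gK n) s
        + mom B (fun t => (ratio B t ^ n)⁻¹) (vK n) s := by
    have i1 := integrable_weighted B hφ (fun x => gK_zero_of_one_le hn) hgi hs
    have i2 := integrable_weighted B hφ (fun x => vK_zero_of_one_le hn) hvi hs
    rw [mom, mom, mom, ← integral_const_mul, ← integral_add (i1.const_mul _) i2]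
    refine setIntegral_congr_fun measurableSet_Ioo fun t _ => ?_
    simp only [vK]
    linear_combination ((ratio B t ^ n)⁻¹ * B.T' t) * wK_split hn (sec s * B.T t)
  rw [hsplit]
  have hn1 : 0 ≤ ((n : ℝ) - 1) / n :=
    div_nonneg (by have : (2 : ℝ) ≤ n := (by exact_mod_cast hn); linarith) hn0.le
  have hkey : kap n / sec s * (a ^ (n - 1) * b) ≤ ((n : ℝ) - 1) / n *
      mom B (fun t => (ratio B t ^ n)⁻¹) (gK n) s + mom B (fun t => (ratio B t ^ n)⁻¹) (vK n) s := by
    refine le_trans ?_ (add_le_add (mul_le_mul_of_nonneg_left hP hn1) hQ)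
    have := mul_le_mul_of_nonneg_left
      (amgm_le (by omega : 1 ≤ n) (by positivity : 0 < a) (by positivity : 0 ≤ b))
      (by positivity : 0 ≤ kap n / sec s / n)
    refine le_trans (le_trans (le_of_eq ?_) this) (le_of_eq ?_)
    · field_simp
    · field_simp
  have h2 := mul_le_mul_of_nonneg_right hkey (by positivity : 0 ≤ (n : ℝ) * J1 ^ (n - 1) * J2)
  refine le_trans (le_of_eq ?_) (le_trans h2 (le_of_eq (by ring)))
  rw [show kap n / sec s * (a ^ (n - 1) * b) * ((n : ℝ) * J1 ^ (n - 1) * J2)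
      = kap n / sec s * (a * J1) ^ (n - 1) * (n * (b * J2)) by rw [mul_pow]; ring,
    show a * J1 = kap n / sec s by rw [ha]; field_simp,
    show (n : ℝ) * (b * J2) = kap n / sec s by rw [hb]; field_simp,
    ← pow_succ', ← pow_succ]
  congr 1
  omega

lemma rho_eq {s : ℝ} : rho B s = mom B (ratio B) (gK n) s / B.scale := by
  rw [rho, mom, ← integral_div]
  exact setIntegral_congr_fun measurableSet_Ioo fun t ht => rho_integrand B s ht

lemma height_eq {s : ℝ} (hs : 0 < s) :
    height B s = ENNReal.ofReal (s * mom B (fun t => (ratio B t ^ n)⁻¹) (wK n) s) := by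
  have hn := B.hn
  have hi := integrable_weighted B (φ := fun t => (ratio B t ^ n)⁻¹)
    (((continuousOn_ratio B).pow n).inv₀ fun t ht => (pow_pos (ratio_pos B ht) n).ne')
    (fun x => wK_zero_of_one_le hn) (wK_facts hn).1 hs
  rw [height, mom, ← integral_const_mul, ofReal_integral_eq_lintegral_ofReal (hi.const_mul _)]
  · exact setLIntegral_congr_fun measurableSet_Ioo fun t ht => by rw [height_integrand B s ht]
  · filter_upwards [ae_restrict_mem measurableSet_Ioo] with t ht
    have := ratio_pos B ht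
    have := B.T'_pos ht
    have := wK_nonneg hn (sec s * B.T t)
    positivity

/-- The integrand of the density of the horizontal sizes. -/
noncomputable def densFun (σ t : ℝ) : ℝ≥0∞ :=
  ENNReal.ofReal (ratio B t * B.T' t / B.scale) *
    ENNReal.ofReal (n * σ * B.T t ^ 2 * wK n (sec σ * B.T t))

/-- The density of the horizontal sizes. -/
noncomputable def dens (σ : ℝ) : ℝ≥0∞ := ∫⁻ t in Ioo B.a B.b, densFun B σ t

lemma aemeasurable_densFun (S : Set ℝ) :
    AEMeasurable (Function.uncurry (densFun B))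
      ((volume.restrict S).prod (volume.restrict (Ioo B.a B.b))) := by
  have hu := ((continuousOn_ratio B).mul B.continuousOn_T').aemeasurable (μ := volume)
    measurableSet_Ioo
  have hT := (B.continuousOn_T).aemeasurable (μ := volume) measurableSet_Ioo
  have h1 : AEMeasurable (fun p : ℝ × ℝ => ratio B p.2 * B.T' p.2)
      ((volume.restrict S).prod (volume.restrict (Ioo B.a B.b))) :=
    hu.comp_quasiMeasurePreserving Measure.quasiMeasurePreserving_snd
  have h2 : AEMeasurable (fun p : ℝ × ℝ => B.T p.2)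
      ((volume.restrict S).prod (volume.restrict (Ioo B.a B.b))) :=
    hT.comp_quasiMeasurePreserving Measure.quasiMeasurePreserving_snd
  have hsec : Measurable sec := by unfold sec; fun_prop
  have h3 : AEMeasurable (fun p : ℝ × ℝ => wK n (sec p.1 * B.T p.2))
      ((volume.restrict S).prod (volume.restrict (Ioo B.a B.b))) :=
    (measurable_wK n).comp_aemeasurable ((hsec.comp measurable_fst).aemeasurable.mul h2)
  exact ((h1.div_const B.scale).ennreal_ofReal).mul
    (((((measurable_fst.const_mul (n : ℝ))).aemeasurable.mul (h2.pow_const 2)).mul h3).ennreal_ofReal)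

lemma integrableOn_rho (s : ℝ) :
    IntegrableOn (fun t => B.r t ^ (n - 1) * gK n (B.om s t)) (Ioo B.a B.b) := by
  refine ((B.integrableOn_pow (n - 1)).mul_const (kap (n - 1))).mono'
    (((B.continuousOn_r.pow _).mul ((continuous_gK n).comp_continuousOn
      (B.continuousOn_om s))).aestronglyMeasurable measurableSet_Ioo) ?_
  filter_upwards [ae_restrict_mem measurableSet_Ioo] with t ht
  rw [Real.norm_eq_abs, abs_of_nonneg (mul_nonneg (pow_nonneg (B.r_pos t ht).le _) (gK_nonneg _ _))]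
  exact mul_le_mul_of_nonneg_left (gK_le n _) (pow_nonneg (B.r_pos t ht).le _)

lemma lintegral_dens {s : ℝ} (hs : 0 ≤ s) :
    ∫⁻ σ in Ioi s, dens B σ = ENNReal.ofReal (rho B s) := by
  have hn := B.hn
  simp only [dens]
  rw [lintegral_lintegral_swap (aemeasurable_densFun B _), rho,
    ofReal_integral_eq_lintegral_ofReal (integrableOn_rho B s)]
  · refine lintegral_congr_ae ?_
    filter_upwards [ae_restrict_mem measurableSet_Ioo, ae_tau_T_ne B (κ := 0)] with t ht hne
    have hT0 : B.T t ≠ 0 := fun h => hne (by simp [tau, h])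
    have hpos : 0 ≤ ratio B t * B.T' t / B.scale := by
      have := ratio_pos B ht
      have := B.T'_pos ht
      have := B.scale_pos
      positivity
    simp only [densFun]
    rw [lintegral_const_mul' _ _ ENNReal.ofReal_ne_top,
      lintegral_tail hn hT0 (abs_lt.2 (B.T_spec ht).1) hs, rho_integrand B s ht,
      ← ENNReal.ofReal_mul hpos]
    congr 1
    ring
  · filter_upwards [ae_restrict_mem measurableSet_Ioo] with t ht
    exact mul_nonneg (pow_nonneg (B.r_pos t ht).le _) (gK_nonneg _ _)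

lemma dens_eq {σ : ℝ} (hσ : 0 < σ) :
    dens B σ = ENNReal.ofReal (n * σ * mom B (ratio B) (vK n) σ / (B.scale * sec σ ^ 2)) := by
  have hn := B.hn
  have hi := integrable_weighted B (continuousOn_ratio B) (fun x => vK_zero_of_one_le hn)
    (wK_facts hn).2.2.1 hσ
  have hl := B.scale_pos
  have hc := sec_pos σ
  rw [mom, ← integral_const_mul, ← integral_div,
    ofReal_integral_eq_lintegral_ofReal ((hi.const_mul _).div_const _)]
  · refine setLIntegral_congr_fun measurableSet_Ioo fun t ht => ?_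
    have := ratio_pos B ht
    have := B.T'_pos ht
    rw [densFun, ← ENNReal.ofReal_mul (by positivity)]
    congr 1
    rw [vK, mul_pow]
    field_simp
  · filter_upwards [ae_restrict_mem measurableSet_Ioo] with t ht
    have := ratio_pos B ht
    have := B.T'_pos ht
    have := vK_nonneg hn (sec σ * B.T t)
    positivity

lemma continuous_rho : Continuous (rho B) := by
  refine continuous_of_dominated (bound := fun t => B.r t ^ (n - 1) * kap (n - 1))
    (fun s => (integrableOn_rho B s).1) (fun s => ?_)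
    ((B.integrableOn_pow (n - 1)).mul_const _) (Eventually.of_forall fun t => ?_)
  · filter_upwards [ae_restrict_mem measurableSet_Ioo] with t ht
    rw [Real.norm_eq_abs,
      abs_of_nonneg (mul_nonneg (pow_nonneg (B.r_pos t ht).le _) (gK_nonneg _ _))]
    exact mul_le_mul_of_nonneg_left (gK_le n _) (pow_nonneg (B.r_pos t ht).le _)
  · exact continuous_const.mul ((continuous_gK n).comp (continuous_id.mul continuous_const))

lemma rho_pos {s : ℝ} (hs : 0 < s) : 0 < rho B s := by
  have hn := B.hn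
  rw [rho_eq]
  exact div_pos (mom_pos_and_jensen B (gK_nonneg n) (fun x => gK_zero_of_one_le hn)
    (continuous_gK n).integrableOn_Ioc (by rw [setIntegral_gK hn]; exact kap_pos n) hs).1
    B.scale_pos

lemma rho_nonneg (s : ℝ) : 0 ≤ rho B s :=
  setIntegral_nonneg measurableSet_Ioo fun t ht =>
    mul_nonneg (pow_nonneg (B.r_pos t ht).le _) (gK_nonneg _ _)

lemma antitoneOn_rho : AntitoneOn (rho B) (Ici 0) := fun s hs t ht hst => by
  refine (ENNReal.ofReal_le_ofReal_iff (rho_nonneg B s)).1 ?_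
  rw [← lintegral_dens B hs, ← lintegral_dens B ht]
  exact lintegral_mono_set (Ioi_subset_Ioi hst)

lemma tendsto_rho_atTop : Tendsto (rho B) atTop (𝓝 0) := by
  have h : Tendsto (rho B) atTop (𝓝 (∫ _t in Ioo B.a B.b, (0 : ℝ))) := by
    refine tendsto_integral_filter_of_dominated_convergence
      (fun t => B.r t ^ (n - 1) * kap (n - 1))
      (Eventually.of_forall fun s => (integrableOn_rho B s).1) (Eventually.of_forall fun s => ?_)
      ((B.integrableOn_pow (n - 1)).mul_const _) ?_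
    · filter_upwards [ae_restrict_mem measurableSet_Ioo] with t ht
      rw [Real.norm_eq_abs,
        abs_of_nonneg (mul_nonneg (pow_nonneg (B.r_pos t ht).le _) (gK_nonneg _ _))]
      exact mul_le_mul_of_nonneg_left (gK_le n _) (pow_nonneg (B.r_pos t ht).le _)
    · filter_upwards [ae_tau_T_ne B (κ := 0)] with t ht
      refine tendsto_const_nhds.congr' ?_
      filter_upwards [eventually_ge_atTop (1 / |tau (B.T t)|), eventually_ge_atTop 0] with s hs hs0
      rw [gK_zero_of_one_le B.hn, mul_zero]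
      rw [Body.om, abs_mul, abs_of_nonneg hs0]
      exact (div_le_iff₀ (abs_pos.2 ht)).1 hs
  simpa using h

lemma map_dens :
    Measure.map (rho B) ((volume.restrict (Ioi 0)).withDensity (dens B))
      = volume.restrict (Ioo 0 (rho B 0)) := by
  have : IsFiniteMeasure ((volume.restrict (Ioi 0)).withDensity (dens B)) :=
    isFiniteMeasure_withDensity (by rw [lintegral_dens B le_rfl]; exact ENNReal.ofReal_ne_top)
  refine Measure.ext_of_Iic _ _ fun u => ?_
  have hm := (continuous_rho B).measurable (measurableSet_Iic (a := u))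
  rw [Measure.map_apply (continuous_rho B).measurable measurableSet_Iic, withDensity_apply _ hm,
    Measure.restrict_restrict hm, Measure.restrict_apply measurableSet_Iic]
  rcases le_or_gt u 0 with hu | hu
  · have e1 : rho B ⁻¹' Iic u ∩ Ioi 0 = ∅ := by
      ext s
      simp only [mem_inter_iff, mem_preimage, mem_Iic, mem_Ioi, mem_empty_iff_false, iff_false]
      exact fun h => absurd (rho_pos B h.2) (by linarith [h.1])
    have e2 : Iic u ∩ Ioo 0 (rho B 0) = ∅ := by
      ext s; simp; intros; linarith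
    rw [e1, e2]; simp
  rcases le_or_gt (rho B 0) u with hu0 | hu0
  · have e1 : rho B ⁻¹' Iic u ∩ Ioi 0 = Ioi 0 :=
      inter_eq_right.2 fun s (hs : 0 < s) =>
        (antitoneOn_rho B self_mem_Ici (mem_Ici.2 (le_of_lt hs)) (le_of_lt hs)).trans hu0
    have e2 : Iic u ∩ Ioo 0 (rho B 0) = Ioo 0 (rho B 0) :=
      inter_eq_right.2 fun x hx => hx.2.le.trans hu0
    rw [e1, e2, lintegral_dens B le_rfl, Real.volume_Ioo, sub_zero]
  set S := Ici (0 : ℝ) ∩ rho B ⁻¹' Iic u with hS
  have hSc : IsClosed S := isClosed_Ici.inter (isClosed_Iic.preimage (continuous_rho B))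
  have hSn : S.Nonempty := by
    obtain ⟨s, h1, h2⟩ :=
      ((eventually_ge_atTop (0 : ℝ)).and ((tendsto_rho_atTop B).eventually (ge_mem_nhds hu))).exists
    exact ⟨s, h1, h2⟩
  have hSb : BddBelow S := ⟨0, fun s hs => hs.1⟩
  obtain ⟨hs0, hsu⟩ := hSc.csInf_mem hSn hSb
  set s₁ := sInf S
  have hsu' : rho B s₁ ≤ u := hsu
  obtain ⟨s₂, hs₂, hs₂u⟩ := intermediate_value_Icc' hs0 (continuous_rho B).continuousOn
    (⟨hsu', hu0.le⟩ : u ∈ Icc (rho B s₁) (rho B 0))
  have hs12 : s₁ = s₂ := le_antisymm (csInf_le hSb ⟨hs₂.1, hs₂u.le⟩) hs₂.2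
  rw [← hs12] at hs₂u
  have hs1pos : 0 < s₁ := by
    rcases (show (0 : ℝ) ≤ s₁ from hs0).eq_or_lt with h | h
    · rw [← h] at hs₂u; linarith
    · exact h
  have e1 : rho B ⁻¹' Iic u ∩ Ioi 0 = Ici s₁ := by
    ext s
    constructor
    · exact fun h => csInf_le hSb ⟨mem_Ici.2 (le_of_lt (mem_Ioi.1 h.2)), h.1⟩
    · exact fun (h : s₁ ≤ s) => ⟨le_trans (antitoneOn_rho B hs0 (hs1pos.le.trans h) h) hsu',
        hs1pos.trans_le h⟩
  have e2 : Iic u ∩ Ioo 0 (rho B 0) = Ioc 0 u := by
    ext x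
    simp only [mem_inter_iff, mem_Iic, mem_Ioo, mem_Ioc]
    exact ⟨fun h => ⟨h.2.1, h.1⟩, fun h => ⟨h.2, h.1, h.2.trans_lt hu0⟩⟩
  rw [e1, e2, ← setLIntegral_congr Ioi_ae_eq_Ici, lintegral_dens B hs1pos.le, hs₂u,
    Real.volume_Ioc, sub_zero]

omit B in
lemma lintegral_sec {m : ℕ} (hm : 2 ≤ m) :
    ∫⁻ s in Ioi (0 : ℝ), ENNReal.ofReal (s ^ 2 / sec s ^ (m + 3))
      = ENNReal.ofReal (kap (m + 1) / (2 * m * kap m)) := by
  have hκ := kap_pos m
  have hm0 : (0 : ℝ) < m := by exact_mod_cast (by omega : 0 < m)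
  set P : ℝ → ℝ := fun x => (∫ u in (0 : ℝ)..x, gK (m + 1) u) - x * gK (m + 1) x with hP
  set G : ℝ → ℝ := fun s => P (s / sec s) / (m * kap m) with hG
  have hlt : ∀ s, |s / sec s| < 1 := fun s => by
    rw [abs_div, abs_of_pos (sec_pos s), div_lt_one (sec_pos s), sec, ← Real.sqrt_sq_eq_abs]
    exact Real.sqrt_lt_sqrt (sq_nonneg s) (by linarith)
  have hd : ∀ s : ℝ, HasDerivAt G (s ^ 2 / sec s ^ (m + 3)) s := by
    intro s
    have hc := sec_pos s
    have hφ : HasDerivAt (fun y => y / sec y) (1 / sec s ^ 3) s := by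
      refine ((hasDerivAt_id s).div (hasDerivAt_sec s) hc.ne').congr_deriv ?_
      simp only [id_eq]
      field_simp
      linarith [sec_sq s]
    have hx := (hlt s).ne
    have h1 := ((continuous_gK (m + 1)).integral_hasStrictDerivAt 0 (s / sec s)).hasDerivAt
    have h2 := (hasDerivAt_id (s / sec s)).mul (hasDerivAt_gK (n := m + 1) (by omega) hx)
    refine (((h1.sub h2).comp s hφ).div_const _).congr_deriv ?_
    have he : 1 - (s / sec s) ^ 2 = (sec s ^ 2)⁻¹ := by
      field_simp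
      linarith [sec_sq s]
    simp only [id_eq, wK, gK, he, Real.sqrt_inv, Real.sqrt_sq hc.le, Nat.add_sub_cancel, inv_pow]
    push_cast
    rw [pow_add]
    field_simp
    ring
  have htend : Tendsto (fun s => s / sec s) atTop (𝓝 1) := by
    have h1 : Tendsto (fun s : ℝ => 1 - 1 / s) atTop (𝓝 1) := by
      simpa [one_div] using tendsto_inv_atTop_zero.const_sub (1 : ℝ)
    refine tendsto_of_tendsto_of_tendsto_of_le_of_le' h1 tendsto_const_nhds ?_
      (Eventually.of_forall fun s => (le_abs_self _).trans (hlt s).le)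
    filter_upwards [eventually_ge_atTop (1 : ℝ)] with s hs
    have hc := sec_pos s
    have : sec s ≤ s + 1 := by
      rw [sec, Real.sqrt_le_iff]; exact ⟨by linarith, by nlinarith⟩
    rw [le_div_iff₀ hc]
    field_simp
    nlinarith
  have hPc : Continuous P := (intervalIntegral.continuous_primitive
    (fun a b => (continuous_gK _).intervalIntegrable a b) 0).sub
      (continuous_id.mul (continuous_gK _))
  have hlim : Tendsto G atTop (𝓝 (kap (m + 1) / (2 * m * kap m))) := by
    have hhalf : (∫ u in (0 : ℝ)..1, gK (m + 1) u) = kap (m + 1) / 2 := by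
      have hadd := intervalIntegral.integral_add_adjacent_intervals (μ := volume) (a := (-1 : ℝ))
        (b := 0) (c := 1) ((continuous_gK (m + 1)).intervalIntegrable _ _)
        ((continuous_gK (m + 1)).intervalIntegrable _ _)
      have hneg := intervalIntegral.integral_comp_neg (a := (-1 : ℝ)) (b := 0) (f := gK (m + 1))
      simp only [gK_neg, neg_zero, neg_neg] at hneg
      rw [intervalIntegral.integral_of_le (show (-1 : ℝ) ≤ 1 by norm_num),
        setIntegral_gK (by omega)] at hadd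
      linarith
    have e : kap (m + 1) / (2 * m * kap m) = P 1 / (m * kap m) := by
      simp only [hP, hhalf, gK_zero_of_one_le (n := m + 1) (by omega) (x := (1 : ℝ)) (by norm_num)]
      field_simp
      ring
    rw [e]
    exact ((hPc.tendsto 1).comp htend).div_const ((m : ℝ) * kap m)
  have hnn : ∀ s ∈ Ioi (0 : ℝ), 0 ≤ s ^ 2 / sec s ^ (m + 3) := fun s _ => by
    have := sec_pos s
    positivity
  rw [← ofReal_integral_eq_lintegral_ofReal
    (integrableOn_Ioi_deriv_of_nonneg' (fun s _ => hd s) hnn hlim)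
    ((ae_restrict_mem measurableSet_Ioi).mono hnn),
    integral_Ioi_of_hasDerivAt_of_nonneg' (fun s _ => hd s) hnn hlim]
  simp [hG, hP]

/-- The volume of a convex body containing all calibrated points. -/
theorem volume_ge {C : Set (EuclideanSpace ℝ (Fin (n + 1)))} (hCc : IsCompact C)
    (hC : ∀ p q, B.a < p → q < B.b → p < q → Calib (slab B p q) ⊆ C) (hconv : Convex ℝ C) :
    ENNReal.ofReal (kap n ^ (n + 1) / kap (n + 1) ^ (n - 1) * B.vol ^ n) ≤ volume C := by
  have hn := B.hn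
  set h : ℝ → ℝ≥0∞ := fun u => ⨆ (s : ℝ) (_ : 0 < s) (_ : u ≤ rho B s), 2 * height B s with hh
  have hanti : Antitone h := fun u v huv =>
    iSup_mono fun s => iSup_mono fun _ => iSup_le fun hv => le_iSup_of_le (huv.trans hv) le_rfl
  have hmeas : Measurable h := hanti.measurable
  have hind : Measurable (C.indicator (1 : EuclideanSpace ℝ (Fin (n + 1)) → ℝ≥0∞)) :=
    measurable_one.indicator hCc.measurableSet
  have hvolC : volume C = ∫⁻ y : EuclideanSpace ℝ (Fin n), volume {v : ℝ | econs v y ∈ C} := by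
    have hcont : Continuous fun p : ℝ × EuclideanSpace ℝ (Fin n) => econs p.1 p.2 := by
      unfold econs; fun_prop
    rw [← lintegral_indicator_one hCc.measurableSet, lintegral_econs hind,
      lintegral_lintegral_swap (f := fun t y => C.indicator 1 (econs t y))
        (hind.comp hcont.measurable).aemeasurable]
    refine lintegral_congr fun y => ?_
    rw [← lintegral_indicator_one (s := {v : ℝ | econs v y ∈ C})
      ((hcont.comp (continuous_id.prodMk continuous_const)).measurable hCc.measurableSet)]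
    rfl
  rw [hvolC]
  refine le_trans ?_ (lintegral_mono (μ := volume) (f := fun y => h ‖y‖) fun y =>
    iSup_le fun s => iSup_le fun hs => iSup_le fun hy => (fibre_le B hCc hC hconv hs y hy).2)
  rw [lintegral_norm (by omega) hmeas]
  refine le_trans ?_ (lintegral_mono_set (s := Ioo 0 (rho B 0)) Ioo_subset_Ioi_self)
  have hgm : Measurable fun u : ℝ => ENNReal.ofReal (n * kap n * u ^ (n - 1)) * h u :=
    (ENNReal.measurable_ofReal.comp (by fun_prop)).mul hmeas
  have hdm : AEMeasurable (dens B) (volume.restrict (Ioi 0)) :=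
    (aemeasurable_densFun B _).lintegral_prod_right'
  rw [← map_dens B, lintegral_map hgm (continuous_rho B).measurable,
    lintegral_withDensity_eq_lintegral_mul₀ hdm
      (g := fun s => ENNReal.ofReal (n * kap n * rho B s ^ (n - 1)) * h (rho B s))
      (hgm.comp (continuous_rho B).measurable).aemeasurable]
  have hκ := kap_pos n
  have hκ1 := kap_pos (n + 1)
  have hl := B.scale_pos
  set K := 2 * n * kap n * (kap n ^ (n + 1) / B.scale ^ n) with hK
  have hval : ENNReal.ofReal (kap n ^ (n + 1) / kap (n + 1) ^ (n - 1) * B.vol ^ n)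
      = ∫⁻ s in Ioi (0 : ℝ), ENNReal.ofReal K * ENNReal.ofReal (s ^ 2 / sec s ^ (n + 3)) := by
    have hn0 : (0 : ℝ) < n := by exact_mod_cast (by omega : 0 < n)
    rw [lintegral_const_mul' _ _ ENNReal.ofReal_ne_top, lintegral_sec hn,
      ← ENNReal.ofReal_mul (by rw [hK]; positivity)]
    congr 1
    have hv := B.vol_pos
    rw [hK, Body.scale, div_pow]
    conv_rhs => rw [show kap (n + 1) ^ n = kap (n + 1) ^ (n - 1) * kap (n + 1) by
      rw [← pow_succ]; congr 1; omega]
    field_simp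
  rw [hval]
  refine lintegral_mono_ae ?_
  filter_upwards [ae_restrict_mem measurableSet_Ioi] with s hs
  have hs' : 0 < s := hs
  have h2 : 2 * height B s ≤ h (rho B s) :=
    le_iSup_of_le s (le_iSup_of_le hs' (le_iSup_of_le le_rfl le_rfl))
  simp only [Pi.mul_apply]
  refine le_trans ?_ (mul_le_mul_right (mul_le_mul_right h2 _) _)
  have hJ := core_ineq B hs'
  have hJ1 := (rho_nonneg B s)
  set J0 := mom B (fun t => (ratio B t ^ n)⁻¹) (wK n) s
  set J2 := mom B (ratio B) (vK n) s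
  have hc := sec_pos s
  have hJ2 : 0 ≤ J2 := setIntegral_nonneg measurableSet_Ioo fun t ht =>
    mul_nonneg (ratio_pos B ht).le (mul_nonneg (B.T'_pos ht).le (vK_nonneg hn _))
  have hJ0 : 0 ≤ J0 := setIntegral_nonneg measurableSet_Ioo fun t ht =>
    mul_nonneg (inv_nonneg.2 (pow_nonneg (ratio_pos B ht).le _))
      (mul_nonneg (B.T'_pos ht).le (wK_nonneg hn _))
  have hK0 : 0 ≤ K := by rw [hK]; positivity
  rw [dens_eq B hs', height_eq B hs', ← ENNReal.ofReal_ofNat 2,
    ← ENNReal.ofReal_mul hK0, ← ENNReal.ofReal_mul (by norm_num : (0 : ℝ) ≤ 2),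
    ← ENNReal.ofReal_mul (by positivity), ← ENNReal.ofReal_mul (by positivity)]
  refine ENNReal.ofReal_le_ofReal ?_
  rw [rho_eq, div_pow]
  set J1 := mom B (ratio B) (gK n) s
  calc K * (s ^ 2 / sec s ^ (n + 3))
      = 2 * n * kap n * s ^ 2 / (B.scale ^ n * sec s ^ 2) * (kap n / sec s) ^ (n + 1) := by
        rw [hK, div_pow, pow_add (sec s) n 3, pow_succ (sec s) n]
        field_simp
    _ ≤ 2 * n * kap n * s ^ 2 / (B.scale ^ n * sec s ^ 2) * (n * J0 * J1 ^ (n - 1) * J2) :=
        mul_le_mul_of_nonneg_left hJ (by positivity)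
    _ = n * s * J2 / (B.scale * sec s ^ 2) *
        (n * kap n * (J1 ^ (n - 1) / B.scale ^ (n - 1)) * (2 * (s * J0))) := by
        rw [show B.scale ^ n = B.scale ^ (n - 1) * B.scale by rw [← pow_succ]; congr 1; omega]
        field_simp

end Vale.Agent.P237R
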