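import Vale.Agent.P237R.Slicing

/-!
# One-dimensional kernels
-/

namespace Vale.Agent.P237R

open MeasureTheory Set Metric Filter Topology Vale.Agent.P237
open scoped RealInnerProductSpace ENNReal

/-- The marginal density of the unit ball. -/
noncomputable def gK (n : ℕ) (x : ℝ) : ℝ := kap (n - 1) * √(1 - x ^ 2) ^ (n - 1)

/-- The rescaled marginal density of the unit sphere. -/
noncomputable def wK (n : ℕ) (x : ℝ) : ℝ := ((n : ℝ) - 1) / n * (gK n x / (1 - x ^ 2))

/-- A primitive of `wK`. -/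
noncomputable def fK (n : ℕ) (x : ℝ) : ℝ := (∫ u in (0 : ℝ)..x, gK n u) - x * gK n x / n

lemma gK_nonneg (n : ℕ) (x : ℝ) : 0 ≤ gK n x :=
  mul_nonneg (kap_pos _).le (pow_nonneg (Real.sqrt_nonneg _) _)

lemma continuous_gK (n : ℕ) : Continuous (gK n) := by
  unfold gK
  fun_prop

lemma measurable_wK (n : ℕ) : Measurable (wK n) := by
  unfold wK gK
  fun_prop

lemma gK_zero_of_one_le {n : ℕ} (hn : 2 ≤ n) {x : ℝ} (hx : 1 ≤ |x|) : gK n x = 0 := by
  have h : 1 - x ^ 2 ≤ 0 := by nlinarith [sq_abs x, abs_nonneg x]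
  rw [gK, Real.sqrt_eq_zero_of_nonpos h, zero_pow (by omega), mul_zero]

lemma gK_neg (n : ℕ) (x : ℝ) : gK n (-x) = gK n x := by simp [gK]

lemma wK_neg (n : ℕ) (x : ℝ) : wK n (-x) = wK n x := by simp [wK, gK_neg]

lemma gK_le (n : ℕ) (x : ℝ) : gK n x ≤ kap (n - 1) := by
  refine mul_le_of_le_one_right (kap_pos _).le (pow_le_one₀ (Real.sqrt_nonneg _) ?_)
  rw [Real.sqrt_le_one]
  nlinarith [sq_nonneg x]

lemma wK_nonneg {n : ℕ} (hn : 2 ≤ n) (x : ℝ) : 0 ≤ wK n x := by
  have hn' : (2 : ℝ) ≤ n := by exact_mod_cast hn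
  rcases le_or_gt 1 |x| with h | h
  · simp [wK, gK_zero_of_one_le hn h]
  · have : 0 < 1 - x ^ 2 := by nlinarith [sq_abs x, abs_nonneg x]
    have := gK_nonneg n x
    have : 0 ≤ (n : ℝ) - 1 := by linarith
    unfold wK
    positivity

lemma wK_split {n : ℕ} (hn : 2 ≤ n) (x : ℝ) :
    wK n x = ((n : ℝ) - 1) / n * gK n x + x ^ 2 * wK n x := by
  rcases le_or_gt 1 |x| with h | h
  · simp [wK, gK_zero_of_one_le hn h]
  · have : 0 < 1 - x ^ 2 := by nlinarith [sq_abs x, abs_nonneg x]
    unfold wK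
    field_simp
    ring

lemma hasDerivAt_gK {n : ℕ} (hn : 2 ≤ n) {x : ℝ} (hx : |x| ≠ 1) :
    HasDerivAt (gK n) (-((n : ℝ) * x * wK n x)) x := by
  rcases lt_or_gt_of_ne hx with h | h
  · have h1 : 0 < 1 - x ^ 2 := by nlinarith [sq_abs x, abs_nonneg x]
    have hd : HasDerivAt (gK n) (kap (n - 1) * ((n - 1 : ℕ) * √(1 - x ^ 2) ^ (n - 1 - 1) *
        ((-(2 * x)) / (2 * √(1 - x ^ 2))))) x := by
      have h0 : HasDerivAt (fun y : ℝ => 1 - y ^ 2) (-(2 * x)) x := by
        simpa using (hasDerivAt_pow 2 x).const_sub (1 : ℝ)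
      exact ((h0.sqrt h1.ne').pow (n - 1)).const_mul _
    refine hd.congr_deriv ?_
    have hs : 0 < √(1 - x ^ 2) := Real.sqrt_pos.2 h1
    have hs2 : √(1 - x ^ 2) * √(1 - x ^ 2) = 1 - x ^ 2 := Real.mul_self_sqrt h1.le
    have hpow : √(1 - x ^ 2) ^ (n - 1) = √(1 - x ^ 2) ^ (n - 1 - 1) * √(1 - x ^ 2) := by
      rw [← pow_succ]; congr 1; omega
    have hn1 : ((n - 1 : ℕ) : ℝ) = (n : ℝ) - 1 := by
      rw [Nat.cast_sub (by omega)]; simp
    have hn0 : (n : ℝ) ≠ 0 := by exact_mod_cast (by omega : n ≠ 0)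
    simp only [wK, gK, hpow, hn1]
    generalize √(1 - x ^ 2) ^ (n - 1 - 1) = P
    generalize hS : √(1 - x ^ 2) = S at *
    rw [← hs2]
    field_simp
  · have hev : gK n =ᶠ[𝓝 x] fun _ => 0 := by
      filter_upwards [(isOpen_lt continuous_const continuous_abs).mem_nhds h] with y hy
      exact gK_zero_of_one_le hn (le_of_lt hy)
    refine ((hasDerivAt_const x (0 : ℝ)).congr_of_eventuallyEq hev).congr_deriv ?_
    simp [wK, gK_zero_of_one_le hn h.le]

lemma continuous_fK (n : ℕ) : Continuous (fK n) := by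
  unfold fK
  exact (intervalIntegral.continuous_primitive (fun a b => (continuous_gK n).intervalIntegrable a b)
    0).sub ((continuous_id.mul (continuous_gK n)).div_const _)

lemma hasDerivAt_fK {n : ℕ} (hn : 2 ≤ n) {x : ℝ} (hx : |x| ≠ 1) :
    HasDerivAt (fK n) (wK n x) x := by
  have h1 := (continuous_gK n).integral_hasStrictDerivAt 0 x |>.hasDerivAt
  have h2 := ((hasDerivAt_id x).mul (hasDerivAt_gK hn hx)).div_const (n : ℝ)
  have h3 : HasDerivAt (fK n) _ x := h1.sub h2
  refine h3.congr_deriv ?_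
  have hn0 : (n : ℝ) ≠ 0 := by exact_mod_cast (by omega : n ≠ 0)
  simp only [id_eq]
  have h4 := wK_split hn x
  field_simp at h4 ⊢
  linarith

lemma monotone_fK {n : ℕ} (hn : 2 ≤ n) : Monotone (fK n) := by
  have hmono : ∀ S : Set ℝ, Convex ℝ S → (∀ x ∈ interior S, |x| ≠ 1) → MonotoneOn (fK n) S :=
    fun S hS hne => monotoneOn_of_hasDerivWithinAt_nonneg hS (continuous_fK n).continuousOn
      (fun x hx => (hasDerivAt_fK hn (hne x hx)).hasDerivWithinAt) (fun x _ => wK_nonneg hn x)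
  have h1 : MonotoneOn (fK n) (Iic (-1)) := hmono _ (convex_Iic _) fun x hx => by
    rw [interior_Iic] at hx
    have : x < -1 := hx
    rw [abs_of_nonpos (by linarith)]; linarith
  have h2 : MonotoneOn (fK n) (Icc (-1) 1) := hmono _ (convex_Icc _ _) fun x hx => by
    rw [interior_Icc] at hx
    exact (abs_lt.2 hx).ne
  have h3 : MonotoneOn (fK n) (Ici 1) := hmono _ (convex_Ici _) fun x hx => by
    rw [interior_Ici] at hx
    have : 1 < x := hx
    rw [abs_of_nonneg (by linarith)]; linarith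
  have h12 : MonotoneOn (fK n) (Iic 1) := by
    have := h1.union_right h2 isGreatest_Iic (isLeast_Icc (by norm_num))
    rwa [Iic_union_Icc_eq_Iic (by norm_num)] at this
  exact h12.Iic_union_Ici h3

lemma integral_ball_coord {n : ℕ} (hn : 2 ≤ n) (e : EuclideanSpace ℝ (Fin n)) (he : ‖e‖ = 1)
    (c : EuclideanSpace ℝ (Fin n)) {r : ℝ} (hr : 0 < r) {f : ℝ → ℝ} (hf : Measurable f) {B : ℝ}
    (hB : ∀ x, |f x| ≤ B) :
    ∫ y in closedBall c r, f ((⟪e, y⟫ - ⟪e, c⟫) / r) = r ^ n * ∫ x, f x * gK n x := by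
  obtain ⟨k, rfl⟩ : ∃ k, n = k + 1 := ⟨n - 1, by omega⟩
  obtain ⟨R, hR⟩ := exists_align e
  rw [he, one_smul] at hR
  have step1 : ∫ y in closedBall c r, f ((⟪e, y⟫ - ⟪e, c⟫) / r)
      = ∫ z in closedBall (0 : EuclideanSpace ℝ (Fin (k + 1))) r, f (z 0 / r) := by
    have h1 : MeasurePreserving (fun y : EuclideanSpace ℝ (Fin (k + 1)) => R (y - c))
        volume volume :=
      R.measurePreserving.comp (measurePreserving_sub_right volume c)
    have h2 : MeasurableEmbedding (fun y : EuclideanSpace ℝ (Fin (k + 1)) => R (y - c)) :=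
      R.toHomeomorph.measurableEmbedding.comp
        (Homeomorph.subRight c).measurableEmbedding
    rw [← h1.setIntegral_preimage_emb h2 (fun z => f (z 0 / r)) (closedBall 0 r)]
    have hset : (fun y : EuclideanSpace ℝ (Fin (k + 1)) => R (y - c)) ⁻¹' closedBall 0 r
        = closedBall c r := by
      ext y
      simp only [mem_preimage, mem_closedBall, dist_eq_norm, sub_zero,
        LinearIsometryEquiv.norm_map]
    rw [hset]
    congr 1
    funext y
    rw [← inner_sub_right, ← LinearIsometryEquiv.inner_map_map R e, hR]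
    simp [e0, EuclideanSpace.inner_single_left]
  have hball : closedBall (0 : EuclideanSpace ℝ (Fin (k + 1))) r
      = roundSet (Icc (-r) r) (fun _ => 0) (fun t => √(r ^ 2 - t ^ 2)) := by
    ext x
    rw [← econs_etail x]
    rw [mem_roundSet, mem_closedBall_zero_iff, mem_closedBall_zero_iff]
    have h := norm_econs_sq (x 0) (etail k x)
    constructor
    · intro hx
      have h2 := pow_le_pow_left₀ (norm_nonneg _) hx 2
      have h3 : (x 0) ^ 2 ≤ r ^ 2 := by nlinarith [sq_nonneg ‖etail k x‖]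
      refine ⟨abs_le.1 (abs_le_of_sq_le_sq h3 hr.le), ?_⟩
      rw [Real.le_sqrt (norm_nonneg _) (by nlinarith)]
      linarith
    · rintro ⟨ht, hy⟩
      have h3 : (x 0) ^ 2 ≤ r ^ 2 := sq_le_sq' ht.1 ht.2
      rw [Real.le_sqrt (norm_nonneg _) (by linarith)] at hy
      exact abs_le_of_sq_le_sq' (by linarith) hr.le |>.2
  have hfi : IntegrableOn (fun z : EuclideanSpace ℝ (Fin (k + 1)) => f (z 0 / r))
      (closedBall 0 r) := by
    refine IntegrableOn.of_bound measure_closedBall_lt_top ?_ B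
      (Eventually.of_forall fun z => by simpa using hB _)
    exact (hf.comp ((by fun_prop : Continuous fun z : EuclideanSpace ℝ (Fin (k + 1)) => z 0 / r)
      ).measurable).aestronglyMeasurable
  rw [step1, hball, integral_roundSet measurableSet_Icc (hball ▸ measurableSet_closedBall)
    (hball ▸ hfi)]
  have hinner : ∀ t, ∫ y in closedBall (0 : EuclideanSpace ℝ (Fin k)) √(r ^ 2 - t ^ 2),
      f (econs t y 0 / r) = r ^ k * (f (t / r) * gK (k + 1) (t / r)) := by
    intro t
    simp only [econs_apply_zero, setIntegral_const, smul_eq_mul, measureReal_def]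
    rw [volume_closedBall_eq _ (Real.sqrt_nonneg _), ENNReal.toReal_ofReal
      (mul_nonneg (kap_pos _).le (pow_nonneg (Real.sqrt_nonneg _) _))]
    have : √(r ^ 2 - t ^ 2) = r * √(1 - (t / r) ^ 2) := by
      rw [← Real.sqrt_sq hr.le, ← Real.sqrt_mul (sq_nonneg r), Real.sqrt_sq hr.le]
      congr 1
      field_simp
    rw [this, gK, Nat.add_sub_cancel, mul_pow]
    ring
  simp only [hinner]
  rw [integral_const_mul, setIntegral_eq_integral_of_forall_compl_eq_zero (fun t ht => ?_)]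
  · rw [Measure.integral_comp_div (fun x => f x * gK (k + 1) x) r, abs_of_pos hr, smul_eq_mul,
      pow_succ]
    ring
  · have : 1 ≤ |t / r| := by
      rw [abs_div, abs_of_pos hr, le_div_iff₀ hr, one_mul]
      by_contra hlt
      exact ht (abs_le.1 (le_of_lt (not_le.1 hlt)))
    rw [gK_zero_of_one_le hn this, mul_zero]

lemma integral_gK {n : ℕ} (hn : 2 ≤ n) : ∫ x, gK n x = kap n := by
  obtain ⟨k, rfl⟩ : ∃ k, n = k + 1 := ⟨n - 1, by omega⟩
  have := integral_ball_coord hn (e0 k) (by simp [e0]) 0 one_pos (f := fun _ => (1 : ℝ))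
    measurable_const (B := 1) (by simp)
  simpa [kap, measureReal_def] using this.symm

lemma setIntegral_gK {n : ℕ} (hn : 2 ≤ n) : ∫ x in Ioc (-1 : ℝ) 1, gK n x = kap n := by
  rw [setIntegral_eq_integral_of_forall_compl_eq_zero (fun x hx => gK_zero_of_one_le hn ?_),
    integral_gK hn]
  simp only [mem_Ioc, not_and_or, not_lt, not_le] at hx
  rcases hx with h | h
  · exact le_trans (by linarith) (neg_le_abs x)
  · exact le_trans h.le (le_abs_self x)

lemma wK_facts {n : ℕ} (hn : 2 ≤ n) :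
    IntegrableOn (wK n) (Ioc (-1) 1) ∧ ∫ x in Ioc (-1 : ℝ) 1, wK n x = kap n ∧
      IntegrableOn (fun x => x ^ 2 * wK n x) (Ioc (-1) 1) ∧
      ∫ x in Ioc (-1 : ℝ) 1, x ^ 2 * wK n x = kap n / n := by
  have hd : ∀ x ∈ Ioo (-1 : ℝ) 1, HasDerivAt (fK n) (wK n x) x :=
    fun x hx => hasDerivAt_fK hn (abs_lt.2 hx).ne
  have hi : IntegrableOn (wK n) (Ioc (-1) 1) :=
    intervalIntegral.integrableOn_deriv_of_nonneg (continuous_fK n).continuousOn hd
      (fun x _ => wK_nonneg hn x)
  have hv : ∫ x in Ioc (-1 : ℝ) 1, wK n x = kap n := by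
    rw [← intervalIntegral.integral_of_le (by norm_num : (-1 : ℝ) ≤ 1),
      intervalIntegral.integral_eq_sub_of_hasDerivAt_of_le (by norm_num)
        (continuous_fK n).continuousOn hd
        ((intervalIntegrable_iff_integrableOn_Ioc_of_le (by norm_num)).2 hi)]
    simp only [fK, gK_zero_of_one_le hn (x := (1 : ℝ)) (by norm_num),
      gK_zero_of_one_le hn (x := (-1 : ℝ)) (by norm_num), mul_zero, zero_div, sub_zero]
    rw [intervalIntegral.integral_interval_sub_left ((continuous_gK n).intervalIntegrable _ _)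
      ((continuous_gK n).intervalIntegrable _ _), intervalIntegral.integral_of_le (by norm_num),
      setIntegral_gK hn]
  have hig : IntegrableOn (gK n) (Ioc (-1) 1) := (continuous_gK n).integrableOn_Ioc
  have heq : (fun x => x ^ 2 * wK n x) = fun x => wK n x - ((n : ℝ) - 1) / n * gK n x := by
    funext x
    linarith [wK_split hn x]
  refine ⟨hi, hv, ?_, ?_⟩
  · rw [heq]; exact hi.sub (hig.const_mul _)
  · rw [heq, integral_sub hi (hig.const_mul _), integral_const_mul, hv, setIntegral_gK hn]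
    have hn0 : (n : ℝ) ≠ 0 := by exact_mod_cast (by omega : n ≠ 0)
    field_simp
    ring

end Vale.Agent.P237R
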