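import Vale.Agent.P237R.Points

/-!
# Passing to the limit in the smoothing parameter
-/

namespace Vale.Agent.P237R

open MeasureTheory Set Metric Filter Topology Vale.Agent.P237
open scoped RealInnerProductSpace ENNReal NNReal

variable {n : ℕ} (B : Body n)

/-- The horizontal size of the flux points. -/
noncomputable def rho (s : ℝ) : ℝ :=
  ∫ t in Ioo B.a B.b, B.r t ^ (n - 1) * gK n (B.om s t)

/-- The vertical size of the flux points. -/
noncomputable def height (s : ℝ) : ℝ≥0∞ :=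
  ∫⁻ t in Ioo B.a B.b, ENNReal.ofReal (B.r t ^ n * B.om' s t * wK n (B.om s t))

lemma ae_tau_T_ne {κ : ℝ} : ∀ᵐ t ∂volume.restrict (Ioo B.a B.b), tau (B.T t) ≠ κ := by
  have hs : ({t | tau (B.T t) = κ} ∩ Ioo B.a B.b).Subsingleton := fun t ht u hu => by
    refine (B.strictMonoOn_om one_pos).injOn ht.2 hu.2 ?_
    simp [Body.om, show tau (B.T t) = κ from ht.1, show tau (B.T u) = κ from hu.1]
  have h0 := hs.measure_zero volume
  rw [ae_restrict_iff' measurableSet_Ioo]
  filter_upwards [measure_eq_zero_iff_ae_notMem.1 h0] with t ht hI h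
  exact ht ⟨h, hI⟩

lemma ae_abs_om_ne {s : ℝ} (hs : 0 < s) :
    ∀ᵐ t ∂volume.restrict (Ioo B.a B.b), |B.om s t| ≠ 1 := by
  filter_upwards [ae_tau_T_ne B (κ := 1 / s), ae_tau_T_ne B (κ := -1 / s)] with t h1 h2 h
  rw [Body.om] at h
  rcases eq_or_eq_neg_of_abs_eq h with h' | h'
  · exact h1 (by rw [eq_div_iff hs.ne']; linarith)
  · exact h2 (by rw [eq_div_iff hs.ne']; linarith)

lemma exists_window {s : ℝ} (hs : 0 < s) :
    ∃ p q, B.a < p ∧ q < B.b ∧ p < q ∧ B.om s p = -2 ∧ B.om s q = 2 ∧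
      ∀ t ∈ Ioo B.a B.b, t ∉ Ioc p q → 2 ≤ |B.om s t| := by
  obtain ⟨p, hp, hp2⟩ := B.exists_om_eq hs (-2)
  obtain ⟨q, hq, hq2⟩ := B.exists_om_eq hs 2
  have hpq : p < q := ((B.strictMonoOn_om hs).lt_iff_lt hp hq).1 (by rw [hp2, hq2]; norm_num)
  refine ⟨p, q, hp.1, hq.2, hpq, hp2, hq2, fun t ht hn' => ?_⟩
  rcases not_and_or.1 hn' with h | h
  · have := (B.strictMonoOn_om hs).monotoneOn ht hp (not_lt.1 h)
    rw [hp2] at this
    exact le_trans (by linarith) (neg_le_abs _)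
  · have := (B.strictMonoOn_om hs).monotoneOn hq ht (le_of_lt (not_le.1 h))
    rw [hq2] at this
    exact le_trans this (le_abs_self _)

/-- Test points at a positive smoothing parameter, with integrals over the whole interval. -/
lemma mem_calib_whole {C : Set (EuclideanSpace ℝ (Fin (n + 1)))}
    (hC : ∀ p q, B.a < p → q < B.b → p < q → Calib (slab B p q) ⊆ C) {s δ : ℝ} (hs : 0 < s)
    (hδ : 0 < δ) (hδ1 : δ ≤ 1) (e : EuclideanSpace ℝ (Fin n)) (he : ‖e‖ = 1) :
    0 ≤ ∫ t in Ioo B.a B.b, B.r t ^ n * B.om' s t * Kd n δ (B.om s t) ∧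
      IntegrableOn (fun t => B.r t ^ n * B.om' s t * Kd n δ (B.om s t)) (Ioo B.a B.b) ∧
      ∃ c : ℝ, ∀ σ : ℝ, |σ| = 1 →
        econs (c + σ * ((∫ t in Ioo B.a B.b, B.r t ^ n * B.om' s t * Kd n δ (B.om s t)) / 2))
          (((∫ t in Ioo B.a B.b, B.r t ^ (n - 1) * Hd n δ (B.om s t)) / 2) • e) ∈ C := by
  obtain ⟨p, q, hp, hq, hpq, hp2, hq2, hout⟩ := exists_window B hs
  have hsub : Ioc p q ⊆ Ioo B.a B.b := fun t ht => ⟨hp.trans ht.1, ht.2.trans_lt hq⟩
  have hIcc : Icc p q ⊆ Ioo B.a B.b := Icc_subset_Ioo hp hq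
  have hz : ∀ t ∈ Ioo B.a B.b, t ∉ Ioc p q →
      Hd n δ (B.om s t) = 0 ∧ Kd n δ (B.om s t) = 0 := fun t ht hn' =>
    ⟨(kernels_eq_zero B.hn hδ (by linarith [hout t ht hn'])).1,
      (kernels_eq_zero B.hn hδ (by linarith [hout t ht hn'])).2.2⟩
  have hi : IntegrableOn (fun t => B.r t ^ n * B.om' s t * Kd n δ (B.om s t)) (Icc p q) :=
    ((((B.continuousOn_r.pow n).mul (B.continuousOn_om' s)).mul
      ((continuous_Kd n δ).comp_continuousOn (B.continuousOn_om s))).mono hIcc).integrableOn_Icc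
  have hI : IntegrableOn (fun t => B.r t ^ n * B.om' s t * Kd n δ (B.om s t)) (Ioo B.a B.b) := by
    refine IntegrableOn.of_forall_sdiff_eq_zero hi measurableSet_Ioo fun t ht => ?_
    simp [(hz t ht.1 fun h => ht.2 (Ioc_subset_Icc_self h)).2]
  refine ⟨setIntegral_nonneg measurableSet_Ioo fun t ht => ?_, hI,
    -(∫ t in p..q, deriv (fun t => ⟪e, B.c t⟫) t * B.r t ^ (n - 1) * Hd n δ (B.om s t)) / 2,
    fun σ hσ => hC p q hp hq hpq ?_⟩
  · exact mul_nonneg (mul_nonneg (pow_nonneg (B.r_pos t ht).le _) (B.om'_nonneg hs.le ht))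
      (Kd_nonneg B.hn hδ _)
  · have e1 : (∫ t in Ioo B.a B.b, B.r t ^ n * B.om' s t * Kd n δ (B.om s t))
        = ∫ t in p..q, B.r t ^ n * B.om' s t * Kd n δ (B.om s t) := by
      rw [intervalIntegral.integral_of_le hpq.le]
      exact setIntegral_eq_of_subset_of_forall_sdiff_eq_zero measurableSet_Ioo hsub
        fun t ht => by simp [(hz t ht.1 ht.2).2]
    have e2 : (∫ t in Ioo B.a B.b, B.r t ^ (n - 1) * Hd n δ (B.om s t))
        = ∫ t in p..q, B.r t ^ (n - 1) * Hd n δ (B.om s t) := by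
      rw [intervalIntegral.integral_of_le hpq.le]
      exact setIntegral_eq_of_subset_of_forall_sdiff_eq_zero measurableSet_Ioo hsub
        fun t ht => by simp [(hz t ht.1 ht.2).1]
    have h := mem_calib B hδ e he hp hq hpq (s := s) (by rw [hp2]; norm_num; linarith)
      (by rw [hq2]; norm_num; linarith) σ hσ
    rw [e1, e2]
    convert h using 2
    ring

lemma tendsto_rho (s : ℝ) {δ : ℕ → ℝ} (hδ0 : ∀ k, 0 < δ k)
    (hδ : Tendsto δ atTop (𝓝[>] 0)) :
    Tendsto (fun k => (∫ t in Ioo B.a B.b, B.r t ^ (n - 1) * Hd n (δ k) (B.om s t)) / 2) atTop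
      (𝓝 (rho B s)) := by
  have h : Tendsto (fun k => ∫ t in Ioo B.a B.b, B.r t ^ (n - 1) * Hd n (δ k) (B.om s t)) atTop
      (𝓝 (∫ t in Ioo B.a B.b, B.r t ^ (n - 1) * (2 * gK n (B.om s t)))) := by
    refine tendsto_integral_of_dominated_convergence
      (fun t => B.r t ^ (n - 1) * (2 * kap (n - 1))) (fun k => ?_)
      ((B.integrableOn_pow (n - 1)).mul_const _) (fun k => ?_) ?_
    · exact (((B.continuousOn_r.pow _).mul
        ((continuous_Hd n (δ k)).comp_continuousOn (B.continuousOn_om s))).aestronglyMeasurable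
          measurableSet_Ioo)
    · filter_upwards [ae_restrict_mem measurableSet_Ioo] with t ht
      rw [norm_mul, Real.norm_eq_abs, Real.norm_eq_abs, abs_pow, abs_of_pos (B.r_pos t ht)]
      exact mul_le_mul_of_nonneg_left (Hd_le n (hδ0 k) _) (pow_nonneg (B.r_pos t ht).le _)
    · exact Eventually.of_forall fun t =>
        ((tendsto_Hd n (B.om s t)).comp hδ).const_mul _
  have h2 := h.div_const 2
  convert h2 using 2
  rw [rho, ← integral_div]
  congr 1
  funext t
  ring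

/-- The flux points in the limit. -/
theorem exists_segment {C : Set (EuclideanSpace ℝ (Fin (n + 1)))} (hCc : IsCompact C)
    (hC : ∀ p q, B.a < p → q < B.b → p < q → Calib (slab B p q) ⊆ C) (hconv : Convex ℝ C)
    {s : ℝ} (hs : 0 < s) (e : EuclideanSpace ℝ (Fin n)) (he : ‖e‖ = 1) :
    height B s ≠ ⊤ ∧
      ∃ c : ℝ, ∀ v : ℝ, |v| ≤ (height B s).toReal → econs (c + v) (rho B s • e) ∈ C := by
  obtain ⟨R, hR⟩ := hCc.isBounded.subset_closedBall 0
  set δ : ℕ → ℝ := fun k => 1 / ((k : ℝ) + 1) with hδdef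
  have hδ0 : ∀ k, 0 < δ k := fun k => by positivity
  have hδ1 : ∀ k, δ k ≤ 1 := fun k => by
    rw [hδdef, div_le_one (by positivity)]; simp
  have hδ : Tendsto δ atTop (𝓝[>] 0) :=
    tendsto_nhdsWithin_iff.2 ⟨tendsto_one_div_add_atTop_nhds_zero_nat,
      Eventually.of_forall hδ0⟩
  set Zd : ℕ → ℝ := fun k =>
    (∫ t in Ioo B.a B.b, B.r t ^ n * B.om' s t * Kd n (δ k) (B.om s t)) / 2 with hZd
  set Pd : ℕ → ℝ := fun k =>
    (∫ t in Ioo B.a B.b, B.r t ^ (n - 1) * Hd n (δ k) (B.om s t)) / 2 with hPd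
  choose h0 hint c hc using fun k => mem_calib_whole B hC hs (hδ0 k) (hδ1 k) e he
  have hbd : ∀ k, ∀ σ : ℝ, |σ| = 1 → |c k + σ * Zd k| ≤ R := fun k σ hσ => by
    refine le_trans ?_ (mem_closedBall_zero_iff.1 (hR (hc k σ hσ)))
    refine abs_le_of_sq_le_sq ?_ (norm_nonneg _)
    rw [norm_econs_sq]
    exact le_add_of_nonneg_right (sq_nonneg _)
  have hbox : ∀ k, (c k, Zd k) ∈ closedBall (0 : ℝ × ℝ) R := fun k => by
    have a1 := abs_le.1 (hbd k 1 (by simp))
    have a2 := abs_le.1 (hbd k (-1) (by simp))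
    rw [mem_closedBall_zero_iff, Prod.norm_mk, Real.norm_eq_abs, Real.norm_eq_abs]
    refine max_le (abs_le.2 ⟨by linarith, by linarith⟩) (abs_le.2 ⟨by linarith, by linarith⟩)
  obtain ⟨⟨c', Z'⟩, -, φ, hφ, hlim⟩ := (isCompact_closedBall (0 : ℝ × ℝ) R).tendsto_subseq hbox
  have hcl : Tendsto (fun k => c (φ k)) atTop (𝓝 c') := (continuous_fst.tendsto _).comp hlim
  have hZl : Tendsto (fun k => Zd (φ k)) atTop (𝓝 Z') := (continuous_snd.tendsto _).comp hlim
  have hPl : Tendsto (fun k => Pd (φ k)) atTop (𝓝 (rho B s)) :=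
    (tendsto_rho B s hδ0 hδ).comp hφ.tendsto_atTop
  have hZ'0 : 0 ≤ Z' := ge_of_tendsto' hZl fun k => div_nonneg (h0 _) (by norm_num)
  have hFatou : height B s ≤ ENNReal.ofReal Z' := by
    have hae : ∀ᵐ t ∂volume.restrict (Ioo B.a B.b),
        ENNReal.ofReal (B.r t ^ n * B.om' s t * wK n (B.om s t)) = liminf (fun k =>
          ENNReal.ofReal (B.r t ^ n * B.om' s t * Kd n (δ (φ k)) (B.om s t) / 2)) atTop := by
      filter_upwards [ae_abs_om_ne B hs] with t ht
      refine (Tendsto.liminf_eq ?_).symm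
      refine ENNReal.tendsto_ofReal ?_
      have := ((((tendsto_Kd B.hn ht).comp hδ).comp hφ.tendsto_atTop).const_mul
        (B.r t ^ n * B.om' s t)).div_const 2
      simp only [Function.comp_def] at this
      convert this using 2
      ring
    have hmeas : ∀ k, AEMeasurable (fun t =>
        ENNReal.ofReal (B.r t ^ n * B.om' s t * Kd n (δ (φ k)) (B.om s t) / 2))
        (volume.restrict (Ioo B.a B.b)) := fun k =>
      (ENNReal.measurable_ofReal.comp_aemeasurable
        ((hint (φ k)).1.aemeasurable.div_const 2))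
    rw [height, lintegral_congr_ae hae]
    refine (lintegral_liminf_le' hmeas).trans (le_of_eq ?_)
    refine (Tendsto.liminf_eq ?_)
    refine (ENNReal.tendsto_ofReal hZl).congr fun k => ?_
    simp only [hZd]
    rw [← integral_div, ofReal_integral_eq_lintegral_ofReal ((hint (φ k)).div_const 2)]
    filter_upwards [ae_restrict_mem measurableSet_Ioo] with t ht
    exact div_nonneg (mul_nonneg (mul_nonneg (pow_nonneg (B.r_pos t ht).le _)
      (B.om'_nonneg hs.le ht)) (Kd_nonneg B.hn (hδ0 _) _)) (by norm_num)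
  have hend : ∀ σ : ℝ, |σ| = 1 → econs (c' + σ * Z') (rho B s • e) ∈ C := by
    intro σ hσ
    refine hCc.isClosed.mem_of_tendsto (b := (atTop : Filter ℕ)) ?_ (Eventually.of_forall fun k => hc (φ k) σ hσ)
    have hcont : Continuous fun p : ℝ × EuclideanSpace ℝ (Fin n) => econs p.1 p.2 := by
      unfold econs; fun_prop
    exact (hcont.tendsto (c' + σ * Z', rho B s • e)).comp
      ((hcl.add (hZl.const_mul σ)).prodMk_nhds (hPl.smul_const e))
  refine ⟨(lt_of_le_of_lt hFatou ENNReal.ofReal_lt_top).ne, c', fun v hv => ?_⟩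
  have hvZ : |v| ≤ Z' := hv.trans <| by
    rw [← ENNReal.toReal_ofReal hZ'0]
    exact ENNReal.toReal_mono ENNReal.ofReal_ne_top hFatou
  rcases hZ'0.eq_or_lt with h | h
  · have : v = 0 := abs_nonpos_iff.1 (h ▸ hvZ)
    simpa [this, ← h] using hend 1 (by simp)
  · have hv' := abs_le.1 hvZ
    have := hconv (hend 1 (by simp)) (hend (-1) (by simp))
      (a := (Z' + v) / (2 * Z')) (b := (Z' - v) / (2 * Z'))
      (div_nonneg (by linarith) (by linarith)) (div_nonneg (by linarith) (by linarith))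
      (by field_simp; ring)
    rw [smul_econs, smul_econs, econs_add, ← add_smul,
      show (Z' + v) / (2 * Z') + (Z' - v) / (2 * Z') = 1 by field_simp; ring, one_smul] at this
    convert this using 2
    field_simp
    ring

/-- The vertical fibres over a horizontal disc. -/
theorem fibre_le {C : Set (EuclideanSpace ℝ (Fin (n + 1)))} (hCc : IsCompact C)
    (hC : ∀ p q, B.a < p → q < B.b → p < q → Calib (slab B p q) ⊆ C) (hconv : Convex ℝ C)
    {s : ℝ} (hs : 0 < s) (y : EuclideanSpace ℝ (Fin n)) (hy : ‖y‖ ≤ rho B s) :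
    height B s ≠ ⊤ ∧ 2 * height B s ≤ volume {v : ℝ | econs v y ∈ C} := by
  obtain ⟨e, he, hye⟩ : ∃ e : EuclideanSpace ℝ (Fin n), ‖e‖ = 1 ∧ y = ‖y‖ • e := by
    rcases eq_or_ne y 0 with rfl | h0
    · obtain ⟨e, he⟩ := B.exists_unit
      exact ⟨e, he, by simp⟩
    · exact ⟨‖y‖⁻¹ • y, by rw [norm_smul, norm_inv, norm_norm, inv_mul_cancel₀ (norm_ne_zero_iff.2 h0)],
        by rw [smul_smul, mul_inv_cancel₀ (norm_ne_zero_iff.2 h0), one_smul]⟩
  obtain ⟨hfin, c₁, h₁⟩ := exists_segment B hCc hC hconv hs e he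
  obtain ⟨-, c₂, h₂⟩ := exists_segment B hCc hC hconv hs (-e) (by simpa using he)
  obtain ⟨l, hl0, hl1, hl⟩ : ∃ l : ℝ, 0 ≤ l ∧ l ≤ 1 ∧ l * rho B s = ‖y‖ := by
    rcases (norm_nonneg y |>.trans hy).eq_or_lt with h | h
    · exact ⟨0, le_rfl, zero_le_one, by rw [zero_mul]; linarith [norm_nonneg y]⟩
    · exact ⟨‖y‖ / rho B s, by positivity, (div_le_one h).2 hy, div_mul_cancel₀ _ h.ne'⟩
  refine ⟨hfin, ?_⟩
  set Z := (height B s).toReal with hZ
  set c := (1 + l) / 2 * c₁ + (1 - l) / 2 * c₂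
  have hsub : Icc (c - Z) (c + Z) ⊆ {v : ℝ | econs v y ∈ C} := by
    intro v hv
    have hv' : |v - c| ≤ Z := abs_le.2 ⟨by linarith [hv.1], by linarith [hv.2]⟩
    have := hconv (h₁ _ hv') (h₂ _ hv') (a := (1 + l) / 2) (b := (1 - l) / 2)
      (by linarith) (by linarith) (by ring)
    rw [smul_econs, smul_econs, econs_add] at this
    show econs v y ∈ C
    convert this using 2
    · simp only [c]; ring
    · conv_lhs => rw [hye, ← hl]
      simp only [smul_smul, smul_neg, ← neg_smul, ← add_smul]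
      congr 1
      ring
  refine le_trans ?_ (measure_mono hsub)
  rw [Real.volume_Icc, show c + Z - (c - Z) = 2 * Z by ring, ENNReal.ofReal_mul zero_le_two,
    hZ, ENNReal.ofReal_toReal hfin, ENNReal.ofReal_ofNat]

end Vale.Agent.P237R
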