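import Vale.Agent.P237R.Kernel

/-!
# Smoothed sign and smoothed kernels
-/

namespace Vale.Agent.P237R

open MeasureTheory Set Filter Topology
open scoped NNReal

/-- The smoothed sign. -/
noncomputable def Phi (δ w : ℝ) : ℝ := max (-1) (min 1 (w / δ))

/-- The derivative of the smoothed sign, away from the two corners. -/
noncomputable def dPhi (δ w : ℝ) : ℝ := (Ioo (-δ) δ).indicator (fun _ => 1 / δ) w

lemma continuous_Phi (δ : ℝ) : Continuous (Phi δ) := by
  unfold Phi
  fun_prop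

lemma abs_Phi_le (δ w : ℝ) : |Phi δ w| ≤ 1 :=
  abs_le.2 ⟨le_max_left _ _, max_le (by norm_num) (min_le_left _ _)⟩

lemma measurable_dPhi (δ : ℝ) : Measurable (dPhi δ) :=
  measurable_const.indicator measurableSet_Ioo

lemma abs_dPhi_le {δ : ℝ} (hδ : 0 < δ) (w : ℝ) : |dPhi δ w| ≤ 1 / δ := by
  unfold dPhi
  by_cases h : w ∈ Ioo (-δ) δ
  · rw [indicator_of_mem h, abs_of_pos (by positivity)]
  · rw [indicator_of_notMem h, abs_zero]
    positivity

lemma Phi_lip {δ : ℝ} (hδ : 0 < δ) (v w : ℝ) : |Phi δ v - Phi δ w| ≤ 1 / δ * |v - w| := by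
  have h1 : |Phi δ v - Phi δ w| ≤ |v / δ - w / δ| := by
    unfold Phi
    rcases le_total (v / δ) 1 with a | a <;> rcases le_total (w / δ) 1 with b | b <;>
      rcases le_total (-1) (v / δ) with c | c <;> rcases le_total (-1) (w / δ) with d | d <;>
      simp only [abs_le] <;> constructor <;>
      simp [min_eq_left, min_eq_right, max_eq_left, max_eq_right, a, b, c, d] <;>
      linarith [le_abs_self (v / δ - w / δ), neg_abs_le (v / δ - w / δ)]
  refine h1.trans (le_of_eq ?_)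
  rw [← sub_div, abs_div, abs_of_pos hδ, div_eq_mul_one_div, mul_comm]

lemma hasDerivAt_Phi {δ : ℝ} (hδ : 0 < δ) {w : ℝ} (hw : |w| ≠ δ) :
    HasDerivAt (Phi δ) (dPhi δ w) w := by
  rcases lt_or_gt_of_ne hw with h | h
  · rw [dPhi, indicator_of_mem (mem_Ioo.2 (abs_lt.1 h))]
    refine HasDerivAt.congr_of_eventuallyEq ((hasDerivAt_id w).div_const δ) ?_
    filter_upwards [(isOpen_lt continuous_abs continuous_const).mem_nhds h] with v hv
    have hv' := abs_lt.1 (hv : |v| < δ)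
    rw [id, Phi, min_eq_right ((div_le_one hδ).2 hv'.2.le), max_eq_right]
    rw [le_div_iff₀ hδ]; linarith
  · rw [dPhi, indicator_of_notMem (fun h' => not_lt.2 h.le (abs_lt.2 (mem_Ioo.1 h')))]
    rcases le_or_gt 0 w with hw0 | hw0
    · rw [abs_of_nonneg hw0] at h
      refine HasDerivAt.congr_of_eventuallyEq (hasDerivAt_const w (1 : ℝ)) ?_
      filter_upwards [isOpen_Ioi.mem_nhds h] with v hv
      rw [Phi, min_eq_left (by rw [le_div_iff₀ hδ]; linarith [(mem_Ioi.1 hv : δ < v)]),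
        max_eq_right (by norm_num)]
    · rw [abs_of_neg hw0] at h
      refine HasDerivAt.congr_of_eventuallyEq (hasDerivAt_const w (-1 : ℝ)) ?_
      filter_upwards [isOpen_Iio.mem_nhds (show w < -δ by linarith)] with v hv
      have : v / δ ≤ -1 := by rw [div_le_iff₀ hδ]; linarith [(mem_Iio.1 hv : v < -δ)]
      rw [Phi, min_eq_right (by linarith), max_eq_left this]

/-- The smoothed ball kernel. -/
noncomputable def Hd (n : ℕ) (δ η : ℝ) : ℝ := (∫ x in (-η - δ)..(-η + δ), gK n x) / δ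

/-- The smoothed moment kernel. -/
noncomputable def Md (n : ℕ) (δ η : ℝ) : ℝ := (∫ x in (-η - δ)..(-η + δ), x * gK n x) / δ

/-- The smoothed sphere kernel. -/
noncomputable def Kd (n : ℕ) (δ η : ℝ) : ℝ := (fK n (-η + δ) - fK n (-η - δ)) / δ

/-- The derivative of the smoothed moment kernel. -/
noncomputable def Md' (n : ℕ) (δ η : ℝ) : ℝ :=
  (-((-η + δ) * gK n (-η + δ)) + (-η - δ) * gK n (-η - δ)) / δ

lemma dPhi_moment {n : ℕ} {δ : ℝ} (hδ : 0 < δ) (η : ℝ) (h : ℝ → ℝ) :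
    ∫ x, dPhi δ (x + η) * h x * gK n x = (∫ x in (-η - δ)..(-η + δ), h x * gK n x) / δ := by
  rw [intervalIntegral.integral_of_le (by linarith), ← setIntegral_congr_set Ioo_ae_eq_Ioc,
    ← integral_indicator measurableSet_Ioo, ← integral_div]
  refine integral_congr_ae (Eventually.of_forall fun x => ?_)
  by_cases hx : x ∈ Ioo (-η - δ) (-η + δ)
  · simp only [dPhi]
    rw [indicator_of_mem hx]
    rw [indicator_of_mem (show x + η ∈ Ioo (-δ) δ from ⟨by linarith [hx.1], by linarith [hx.2]⟩)]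
    ring
  · simp only [dPhi]
    rw [indicator_of_notMem hx]
    rw [indicator_of_notMem fun h' => hx ⟨by linarith [h'.1], by linarith [h'.2]⟩]
    simp

lemma Md'_eq {n : ℕ} (hn : 2 ≤ n) (δ η : ℝ) : Hd n δ η + Md' n δ η / n = Kd n δ η := by
  have hn0 : (n : ℝ) ≠ 0 := by exact_mod_cast (by omega : n ≠ 0)
  have h : (∫ x in (-η - δ)..(-η + δ), gK n x)
      = (∫ x in (0 : ℝ)..(-η + δ), gK n x) - ∫ x in (0 : ℝ)..(-η - δ), gK n x := by
    rw [intervalIntegral.integral_interval_sub_left ((continuous_gK n).intervalIntegrable _ _)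
      ((continuous_gK n).intervalIntegrable _ _)]
  simp only [Hd, Md', Kd, fK, h]
  field_simp
  ring

lemma hasDerivAt_Md (n : ℕ) (δ η : ℝ) : HasDerivAt (Md n δ) (Md' n δ η) η := by
  have hc : Continuous fun x => x * gK n x := continuous_id.mul (continuous_gK n)
  have hF : ∀ c : ℝ, HasDerivAt (fun η : ℝ => ∫ x in (0 : ℝ)..(-η + c), x * gK n x)
      (-((-η + c) * gK n (-η + c))) η := by
    intro c
    have h1 := (hc.integral_hasStrictDerivAt 0 (-η + c)).hasDerivAt
    have h2 : HasDerivAt (fun η : ℝ => -η + c) (-1) η := (hasDerivAt_neg η).add_const c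
    refine (h1.comp η h2).congr_deriv ?_
    ring
  have heq : Md n δ = fun η => ((∫ x in (0 : ℝ)..(-η + δ), x * gK n x)
      - ∫ x in (0 : ℝ)..(-η + -δ), x * gK n x) / δ := by
    funext η
    rw [Md, intervalIntegral.integral_interval_sub_left (hc.intervalIntegrable _ _)
      (hc.intervalIntegrable _ _), sub_eq_add_neg (-η) δ]
  rw [heq]
  refine (((hF δ).sub (hF (-δ))).div_const δ).congr_deriv ?_
  rw [Md', ← sub_eq_add_neg]
  ring

lemma continuous_Md' (n : ℕ) (δ : ℝ) : Continuous (Md' n δ) := by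
  have := continuous_gK n
  unfold Md'
  fun_prop

lemma continuous_Hd (n : ℕ) (δ : ℝ) : Continuous (Hd n δ) := by
  have hc := continuous_gK n
  have : Hd n δ = fun η => ((∫ x in (0 : ℝ)..(-η + δ), gK n x)
      - ∫ x in (0 : ℝ)..(-η - δ), gK n x) / δ := by
    funext η
    rw [Hd, intervalIntegral.integral_interval_sub_left (hc.intervalIntegrable _ _)
      (hc.intervalIntegrable _ _)]
  rw [this]
  have hp := intervalIntegral.continuous_primitive (μ := volume) (fun a b => hc.intervalIntegrable a b) 0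
  exact ((hp.comp (by fun_prop)).sub (hp.comp (by fun_prop))).div_const _

lemma continuous_Kd (n : ℕ) (δ : ℝ) : Continuous (Kd n δ) := by
  have := continuous_fK n
  unfold Kd
  fun_prop

lemma Hd_neg (n : ℕ) (δ η : ℝ) : Hd n δ (-η) = Hd n δ η := by
  rw [Hd, Hd]
  congr 1
  rw [show (-η - δ) = -(η + δ) by ring, show (-η + δ) = -(η - δ) by ring,
    ← intervalIntegral.integral_comp_neg (f := gK n), neg_neg]
  simp [gK_neg]

lemma fK_neg (n : ℕ) (x : ℝ) : fK n (-x) = -fK n x := by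
  have : (∫ u in (0 : ℝ)..(-x), gK n u) = -∫ u in (0 : ℝ)..x, gK n u := by
    have h := intervalIntegral.integral_comp_neg (a := 0) (b := x) (f := gK n)
    simp only [gK_neg, neg_zero] at h
    rw [h, intervalIntegral.integral_symm]
  rw [fK, fK, this, gK_neg]
  ring

lemma Kd_neg (n : ℕ) (δ η : ℝ) : Kd n δ (-η) = Kd n δ η := by
  rw [Kd, Kd, show -(-η) + δ = -(-η - δ) by ring, show -(-η) - δ = -(-η + δ) by ring, fK_neg,
    fK_neg]
  ring

lemma Kd_nonneg {n : ℕ} (hn : 2 ≤ n) {δ : ℝ} (hδ : 0 < δ) (η : ℝ) : 0 ≤ Kd n δ η :=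
  div_nonneg (sub_nonneg.2 (monotone_fK hn (by linarith))) hδ.le

lemma Hd_nonneg (n : ℕ) {δ : ℝ} (hδ : 0 < δ) (η : ℝ) : 0 ≤ Hd n δ η :=
  div_nonneg (intervalIntegral.integral_nonneg (by linarith) fun x _ => gK_nonneg n x) hδ.le

lemma Hd_le (n : ℕ) {δ : ℝ} (hδ : 0 < δ) (η : ℝ) : |Hd n δ η| ≤ 2 * kap (n - 1) := by
  rw [abs_of_nonneg (Hd_nonneg n hδ η), Hd, div_le_iff₀ hδ]
  have h := intervalIntegral.integral_mono_on (by linarith)
    ((continuous_gK n).intervalIntegrable _ _) (intervalIntegrable_const (μ := volume))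
    (fun x (_ : x ∈ Icc (-η - δ) (-η + δ)) => gK_le n x)
  rw [intervalIntegral.integral_const, smul_eq_mul] at h
  linarith

lemma kernels_eq_zero {n : ℕ} (hn : 2 ≤ n) {δ η : ℝ} (hδ : 0 < δ) (h : 1 + δ ≤ |η|) :
    Hd n δ η = 0 ∧ Md n δ η = 0 ∧ Kd n δ η = 0 := by
  have hz : ∀ x ∈ Icc (-η - δ) (-η + δ), gK n x = 0 := by
    intro x hx
    refine gK_zero_of_one_le hn ?_
    rcases le_abs'.1 h with h' | h'
    · exact le_trans (by linarith [hx.1]) (le_abs_self x)
    · exact le_trans (by linarith [hx.2]) (neg_le_abs x)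
  have huI : uIcc (-η - δ) (-η + δ) = Icc (-η - δ) (-η + δ) := uIcc_of_le (by linarith)
  have hH : Hd n δ η = 0 := by
    rw [Hd, intervalIntegral.integral_congr (g := fun _ => 0) (fun x hx => hz x (huI ▸ hx))]
    simp
  have hM : Md n δ η = 0 := by
    rw [Md, intervalIntegral.integral_congr (g := fun _ => 0)
      (fun x hx => by rw [hz x (huI ▸ hx), mul_zero])]
    simp
  refine ⟨hH, hM, ?_⟩
  rw [← Md'_eq hn, hH, Md', hz _ (right_mem_Icc.2 (by linarith)), hz _ (left_mem_Icc.2 (by linarith))]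
  simp

lemma tendsto_sym_slope {F : ℝ → ℝ} {F' x : ℝ} (h : HasDerivAt F F' x) :
    Tendsto (fun δ => (F (x + δ) - F (x - δ)) / δ) (𝓝[>] 0) (𝓝 (2 * F')) := by
  have h1 : HasDerivAt (fun δ => F (x + δ) - F (x - δ)) (2 * F') 0 := by
    have ha : HasDerivAt (fun δ : ℝ => x + δ) 1 0 := (hasDerivAt_id' (0 : ℝ)).const_add x
    have hb : HasDerivAt (fun δ : ℝ => x - δ) (-1) 0 := (hasDerivAt_id' (0 : ℝ)).const_sub x
    refine ((h.comp_of_eq 0 ha (by simp)).sub (h.comp_of_eq 0 hb (by simp))).congr_deriv ?_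
    ring
  have h2 := (h1.tendsto_slope).mono_left (nhdsWithin_mono 0 fun y (hy : 0 < y) => hy.ne')
  refine h2.congr fun δ => ?_
  simp [slope, div_eq_inv_mul]

lemma tendsto_Hd (n : ℕ) (η : ℝ) :
    Tendsto (fun δ => Hd n δ η) (𝓝[>] 0) (𝓝 (2 * gK n η)) := by
  have hc := continuous_gK n
  have h := tendsto_sym_slope ((hc.integral_hasStrictDerivAt 0 (-η)).hasDerivAt)
  rw [gK_neg] at h
  refine h.congr fun δ => ?_
  rw [Hd, intervalIntegral.integral_interval_sub_left (hc.intervalIntegrable _ _)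
    (hc.intervalIntegrable _ _)]

lemma tendsto_Kd {n : ℕ} (hn : 2 ≤ n) {η : ℝ} (hη : |η| ≠ 1) :
    Tendsto (fun δ => Kd n δ η) (𝓝[>] 0) (𝓝 (2 * wK n η)) := by
  have h := tendsto_sym_slope (hasDerivAt_fK hn (x := -η) (by rwa [abs_neg]))
  rw [wK_neg] at h
  exact h

end Vale.Agent.P237R
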