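import Vale.Agent.P237R.Profile
import Vale.Agent.P237R.Smooth
import Vale.Agent.P237R.Calib

/-!
# The calibrated points
-/

namespace Vale.Agent.P237R

open MeasureTheory Set Metric Filter Topology Vale.Agent.P237
open scoped RealInnerProductSpace ENNReal NNReal

lemma ae_roundSet {n : ℕ} {I : Set ℝ} (hI : MeasurableSet I)
    {c : ℝ → EuclideanSpace ℝ (Fin n)} {r : ℝ → ℝ} (hS : MeasurableSet (roundSet I c r))
    {P : EuclideanSpace ℝ (Fin (n + 1)) → Prop} (hP : MeasurableSet {x | P x})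
    (h : ∀ᵐ t ∂volume.restrict I, ∀ᵐ y ∂volume.restrict (closedBall (c t) (r t)), P (econs t y)) :
    ∀ᵐ x ∂volume.restrict (roundSet I c r), P x := by
  classical
  rw [ae_iff]
  have hPc : MeasurableSet {x | ¬P x} := hP.compl
  rw [← lintegral_indicator_one hPc, lintegral_roundSet hI hS (measurable_one.indicator hPc)]
  refine lintegral_eq_zero_of_ae_eq_zero ?_
  filter_upwards [h] with t ht
  refine lintegral_eq_zero_of_ae_eq_zero ?_
  filter_upwards [ht] with y hy
  simp [hy]

lemma exists_lipschitzOnWith_of_deriv {f f' : ℝ → ℝ} {p q : ℝ}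
    (hf : ∀ t ∈ Icc p q, HasDerivAt f (f' t) t) (hc : ContinuousOn f' (Icc p q)) :
    ∃ L : ℝ≥0, LipschitzOnWith L f (Icc p q) := by
  obtain ⟨C, hC⟩ := isCompact_Icc.exists_bound_of_continuousOn hc
  refine ⟨C.toNNReal, (convex_Icc p q).lipschitzOnWith_of_nnnorm_hasDerivWithin_le
    (fun t ht => (hf t ht).hasDerivWithinAt) fun t ht => ?_⟩
  rw [← NNReal.coe_le_coe, coe_nnnorm]
  exact (hC t ht).trans (Real.le_coe_toNNReal C)

/-- The slope of the normal in the unit ball at a height. -/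
noncomputable def tau (x : ℝ) : ℝ := x / √(1 - x ^ 2)

lemma hasDerivAt_tau {x : ℝ} (hx : x ∈ Ioo (-1 : ℝ) 1) :
    HasDerivAt tau (1 / ((1 - x ^ 2) * √(1 - x ^ 2))) x := by
  have h1 : 0 < 1 - x ^ 2 := by nlinarith [hx.1, hx.2]
  have h0 : HasDerivAt (fun y : ℝ => 1 - y ^ 2) (-(2 * x)) x := by
    simpa using (hasDerivAt_pow 2 x).const_sub (1 : ℝ)
  refine ((hasDerivAt_id x).div (h0.sqrt h1.ne') (Real.sqrt_pos.2 h1).ne').congr_deriv ?_
  have hs : √(1 - x ^ 2) ^ 2 = 1 - x ^ 2 := Real.sq_sqrt h1.le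
  simp only [id_eq]
  field_simp
  rw [hs]
  ring

namespace Body

variable {n : ℕ} (B : Body n)

/-- The threshold at a height. -/
noncomputable def om (s t : ℝ) : ℝ := s * tau (B.T t)

/-- The derivative of the threshold. -/
noncomputable def om' (s t : ℝ) : ℝ :=
  s * (B.T' t / ((1 - B.T t ^ 2) * √(1 - B.T t ^ 2)))

lemma hasDerivAt_om (s : ℝ) {t : ℝ} (ht : t ∈ Ioo B.a B.b) :
    HasDerivAt (B.om s) (B.om' s t) t := by
  refine (((hasDerivAt_tau (B.T_spec ht).1).comp t (B.hasDerivAt_T ht)).const_mul s).congr_deriv ?_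
  rw [om']
  ring

lemma continuousOn_om' (s : ℝ) : ContinuousOn (B.om' s) (Ioo B.a B.b) := by
  have hsq := (continuousOn_const (c := (1 : ℝ))).sub (B.continuousOn_T.pow 2)
  refine continuousOn_const.mul (B.continuousOn_T'.div (hsq.mul hsq.sqrt) fun t ht => ?_)
  have hT := (B.T_spec ht).1
  have h1 : 0 < 1 - B.T t ^ 2 := by nlinarith [hT.1, hT.2]
  exact (mul_pos h1 (Real.sqrt_pos.2 h1)).ne'

lemma continuousOn_om (s : ℝ) : ContinuousOn (B.om s) (Ioo B.a B.b) :=
  fun _ ht => (B.hasDerivAt_om s ht).continuousAt.continuousWithinAt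

lemma om'_nonneg {s : ℝ} (hs : 0 ≤ s) {t : ℝ} (ht : t ∈ Ioo B.a B.b) : 0 ≤ B.om' s t := by
  have hT := (B.T_spec ht).1
  have h1 : 0 < 1 - B.T t ^ 2 := by nlinarith [hT.1, hT.2]
  have := B.T'_pos ht
  unfold om'
  positivity

lemma strictMonoOn_om {s : ℝ} (hs : 0 < s) : StrictMonoOn (B.om s) (Ioo B.a B.b) := by
  refine strictMonoOn_of_hasDerivWithinAt_pos (convex_Ioo _ _) (B.continuousOn_om s)
    (f' := B.om' s) (fun t ht => ?_) fun t ht => ?_
  · rw [interior_Ioo] at ht ⊢
    exact (B.hasDerivAt_om s ht).hasDerivWithinAt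
  · rw [interior_Ioo] at ht
    have hT := (B.T_spec ht).1
    have h1 : 0 < 1 - B.T t ^ 2 := by nlinarith [hT.1, hT.2]
    have := B.T'_pos ht
    unfold om'
    positivity

lemma exists_om_eq {s : ℝ} (hs : 0 < s) (κ : ℝ) : ∃ t ∈ Ioo B.a B.b, B.om s t = κ := by
  set m := κ / s with hm
  have h1 : 0 < 1 + m ^ 2 := by positivity
  set x := m / √(1 + m ^ 2) with hx
  have hsq : 0 < √(1 + m ^ 2) := Real.sqrt_pos.2 h1
  have hlt : |m| < √(1 + m ^ 2) := by
    rw [← Real.sqrt_sq_eq_abs]
    exact Real.sqrt_lt_sqrt (sq_nonneg _) (by linarith)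
  have hxm : x ∈ Ioo (-1 : ℝ) 1 := by
    rw [mem_Ioo, ← abs_lt, hx, abs_div, abs_of_pos hsq, div_lt_one hsq]
    exact hlt
  rw [← B.image_T] at hxm
  obtain ⟨t, ht, htx⟩ := hxm
  refine ⟨t, ht, ?_⟩
  rw [om, htx, tau, hx]
  have h2 : 1 - (m / √(1 + m ^ 2)) ^ 2 = 1 / (1 + m ^ 2) := by
    rw [div_pow, Real.sq_sqrt h1.le]
    field_simp
    ring
  rw [h2, one_div, Real.sqrt_inv]
  field_simp
  rw [hm]
  field_simp

end Body

section

variable {n : ℕ} (B : Body n)

/-- The body between two heights. -/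
def slab (p q : ℝ) : Set (EuclideanSpace ℝ (Fin (n + 1))) := roundSet (Icc p q) B.c B.r

lemma slab_props {p q : ℝ} (hp : B.a < p) (hq : q < B.b) :
    slab B p q ⊆ B.set ∧ IsCompact (slab B p q) ∧ Convex ℝ (slab B p q) := by
  have hsub : Icc p q ⊆ Icc B.a B.b := Icc_subset_Icc hp.le hq.le
  have heq : slab B p q = B.set ∩ (fun x => x 0) ⁻¹' Icc p q := by
    ext x
    simp only [slab, Body.set, roundSet, mem_inter_iff, mem_ofPred_eq, mem_preimage]
    exact ⟨fun h => ⟨⟨hsub h.1, h.2⟩, h.1⟩, fun h => ⟨h.2, h.1.2⟩⟩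
  refine ⟨fun x hx => ⟨hsub hx.1, hx.2⟩, ?_, ?_⟩
  · rw [heq]
    exact B.cpt.inter_right (isClosed_Icc.preimage (by fun_prop))
  · rw [heq]
    exact B.conv.inter ((convex_Icc p q).linear_preimage
      (EuclideanSpace.projₗ (0 : Fin (n + 1)) : EuclideanSpace ℝ (Fin (n + 1)) →ₗ[ℝ] ℝ))

theorem mem_calib {s δ : ℝ} (hδ : 0 < δ) (e : EuclideanSpace ℝ (Fin n)) (he : ‖e‖ = 1)
    {p q : ℝ} (hp : B.a < p) (hq : q < B.b) (hpq : p < q)
    (hωp : 1 + δ ≤ |B.om s p|) (hωq : 1 + δ ≤ |B.om s q|) (σ : ℝ) (hσ : |σ| = 1) :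
    econs ((-(∫ t in p..q, deriv (fun t => ⟪e, B.c t⟫) t * B.r t ^ (n - 1) * Hd n δ (B.om s t))
        + σ * ∫ t in p..q, B.r t ^ n * B.om' s t * Kd n δ (B.om s t)) / 2)
      (((∫ t in p..q, B.r t ^ (n - 1) * Hd n δ (B.om s t)) / 2) • e)
      ∈ Calib (slab B p q) := by
  classical
  have hn := B.hn
  obtain ⟨hsubK, hcptK, -⟩ := slab_props B hp hq
  have hIcc : Icc p q ⊆ Ioo B.a B.b := Icc_subset_Ioo hp hq
  obtain ⟨⟨Lr, hLr⟩, hLγ⟩ := B.exists_lipschitz hp hq
  obtain ⟨Lγ, hLγ⟩ := hLγ e he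
  set γ : ℝ → ℝ := fun t => ⟪e, B.c t⟫ with hγ
  obtain ⟨m, hm, hrm⟩ : ∃ m, 0 < m ∧ ∀ t ∈ Icc p q, m ≤ B.r t := by
    obtain ⟨t₀, ht₀, hmin⟩ := isCompact_Icc.exists_isMinOn (nonempty_Icc.2 hpq.le)
      hLr.continuousOn
    exact ⟨B.r t₀, B.r_pos t₀ (hIcc ht₀), fun t ht => hmin ht⟩
  have hLu : LipschitzOnWith (Real.toNNReal ((Lr : ℝ) / m ^ 2)) (fun t => 1 / B.r t) (Icc p q) := by
    refine LipschitzOnWith.of_dist_le_mul fun x hx y hy => ?_
    rw [Real.coe_toNNReal _ (by positivity), Real.dist_eq]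
    have hrx := lt_of_lt_of_le hm (hrm x hx)
    have hry := lt_of_lt_of_le hm (hrm y hy)
    have h := hLr.dist_le_mul x hx y hy
    rw [Real.dist_eq] at h
    rw [div_sub_div _ _ hrx.ne' hry.ne', one_mul, mul_one, abs_div, abs_sub_comm,
      abs_of_pos (mul_pos hrx hry), div_mul_eq_mul_div]
    have : m ^ 2 ≤ B.r x * B.r y := by
      rw [sq]; exact mul_le_mul (hrm x hx) (hrm y hy) hm.le hrx.le
    exact div_le_div₀ (by positivity) h (by positivity) this
  obtain ⟨Lω, hLω⟩ := exists_lipschitzOnWith_of_deriv (fun t ht => B.hasDerivAt_om s (hIcc ht))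
    ((B.continuousOn_om' s).mono hIcc)
  let P : ℝ → ℝ := fun t => (projIcc p q hpq.le t : ℝ)
  have hP : ∀ t, P t ∈ Icc p q := fun t => (projIcc p q hpq.le t).2
  have hPc : Continuous P := continuous_subtype_val.comp continuous_projIcc
  have hP1 : ∀ x y, |P x - P y| ≤ |x - y| := fun x y => by
    have := (LipschitzWith.projIcc hpq.le).dist_le_mul x y
    simpa [Subtype.dist_eq, Real.dist_eq] using this
  have hPid : ∀ t ∈ Icc p q, P t = t := fun t ht => by simp [P, projIcc_of_mem hpq.le ht]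
  have hcu : Continuous fun t => 1 / B.r (P t) :=
    hLu.continuousOn.comp_continuous hPc hP
  have hcγ : Continuous fun t => γ (P t) := hLγ.continuousOn.comp_continuous hPc hP
  have hcω : Continuous fun t => B.om s (P t) :=
    ((B.continuousOn_om s).mono hIcc).comp_continuous hPc hP
  have hcω' : Continuous fun t => B.om' s (P t) :=
    ((B.continuousOn_om' s).mono hIcc).comp_continuous hPc hP
  let ℓ : EuclideanSpace ℝ (Fin (n + 1)) → ℝ := fun x => ⟪e, etail n x⟫
  have hℓc : Continuous ℓ := continuous_const.inner (etail n).continuous_of_finiteDimensional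
  have hc0 : Continuous fun x : EuclideanSpace ℝ (Fin (n + 1)) => x 0 := by fun_prop
  let W : EuclideanSpace ℝ (Fin (n + 1)) → ℝ := fun x =>
    (ℓ x - γ (P (x 0))) * (1 / B.r (P (x 0))) + σ * B.om s (P (x 0))
  have hWc : Continuous W :=
    ((hℓc.sub (hcγ.comp hc0)).mul (hcu.comp hc0)).add (continuous_const.mul (hcω.comp hc0))
  refine ⟨fun x => Phi δ (W x), (continuous_Phi δ).comp hWc, fun x => abs_Phi_le _ _, fun w => ?_⟩
  set A : ℝ → ℝ := fun t => ⟪e, etail n w⟫ * (1 / B.r (P t))
    + w 0 * (-(deriv γ t * (1 / B.r (P t))) + σ * B.om' s (P t)) with hA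
  set C : ℝ → ℝ := fun t => -(w 0 * (deriv B.r t * (1 / B.r (P t)))) with hC
  set F' : EuclideanSpace ℝ (Fin (n + 1)) → ℝ := fun x =>
    dPhi δ (W x) * (A (x 0) + C (x 0) * ((ℓ x - γ (P (x 0))) * (1 / B.r (P (x 0))))) with hF'
  have hAm : Measurable A := (measurable_const.mul hcu.measurable).add (measurable_const.mul
    (((measurable_deriv γ).mul hcu.measurable).neg.add (measurable_const.mul hcω'.measurable)))
  have hCm : Measurable C :=
    (measurable_const.mul ((measurable_deriv B.r).mul hcu.measurable)).neg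
  have hF'm : Measurable F' := ((measurable_dPhi δ).comp hWc.measurable).mul
    ((hAm.comp hc0.measurable).add ((hCm.comp hc0.measurable).mul
      ((hℓc.sub (hcγ.comp hc0)).mul (hcu.comp hc0)).measurable))
  obtain ⟨U, hU⟩ := isCompact_Icc.exists_bound_of_continuousOn hLu.continuousOn
  obtain ⟨G, hG⟩ := isCompact_Icc.exists_bound_of_continuousOn hLγ.continuousOn
  set N : EuclideanSpace ℝ (Fin (n + 1)) → ℝ := fun x => |ℓ x| + |⟪e, etail n w⟫| with hN
  set bound : EuclideanSpace ℝ (Fin (n + 1)) → ℝ := fun x =>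
    1 / δ * ((|⟪e, etail n w⟫| + (Lγ : ℝ) * |w 0|) * U
      + (N x + G) * ((Real.toNNReal ((Lr : ℝ) / m ^ 2) : ℝ) * |w 0|)
      + (Lω : ℝ) * |w 0|) with hbound
  have hlip : ∀ᵐ x ∂volume.restrict (slab B p q), LipschitzOnWith (Real.nnabs (bound x))
      (fun ε : ℝ => Phi δ (W (x + ε • w))) (ball 0 1) := by
    refine Eventually.of_forall fun x => LipschitzOnWith.of_dist_le_mul fun u hu v hv => ?_
    rw [Real.dist_eq, Real.dist_eq, Real.coe_nnabs]
    refine le_trans ?_ (mul_le_mul_of_nonneg_right (le_abs_self _) (abs_nonneg _))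
    refine (Phi_lip hδ _ _).trans ?_
    rw [hbound, mul_assoc]
    refine mul_le_mul_of_nonneg_left ?_ (by positivity)
    have hℓ : ∀ u : ℝ, ℓ (x + u • w) = ℓ x + u * ⟪e, etail n w⟫ := fun u => by
      simp [ℓ, map_add, map_smul, inner_add_right, real_inner_smul_right]
    have hx0 : ∀ u : ℝ, (x + u • w) 0 = x 0 + u * w 0 := fun u => by simp
    simp only [W, hℓ, hx0]
    set a := P (x 0 + u * w 0)
    set b := P (x 0 + v * w 0)
    have hab : |a - b| ≤ |w 0| * |u - v| := by
      refine (hP1 _ _).trans (le_of_eq ?_)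
      rw [← abs_mul]; congr 1; ring
    have e1 : |γ a - γ b| ≤ (Lγ : ℝ) * (|w 0| * |u - v|) := by
      have := hLγ.dist_le_mul a (hP _) b (hP _)
      rw [Real.dist_eq, Real.dist_eq] at this
      exact this.trans (mul_le_mul_of_nonneg_left hab Lγ.coe_nonneg)
    have e2 : |1 / B.r a - 1 / B.r b|
        ≤ (Real.toNNReal ((Lr : ℝ) / m ^ 2) : ℝ) * (|w 0| * |u - v|) := by
      have := hLu.dist_le_mul a (hP _) b (hP _)
      rw [Real.dist_eq, Real.dist_eq] at this
      exact this.trans (mul_le_mul_of_nonneg_left hab (NNReal.coe_nonneg _))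
    have e3 : |B.om s a - B.om s b| ≤ (Lω : ℝ) * (|w 0| * |u - v|) := by
      have := hLω.dist_le_mul a (hP _) b (hP _)
      rw [Real.dist_eq, Real.dist_eq] at this
      exact this.trans (mul_le_mul_of_nonneg_left hab Lω.coe_nonneg)
    have e4 : |ℓ x + v * ⟪e, etail n w⟫ - γ b| ≤ N x + G := by
      have hv1 : |v| ≤ 1 := by
        rw [mem_ball_zero_iff, Real.norm_eq_abs] at hv; exact hv.le
      have hg : |γ b| ≤ G := by simpa using hG b (hP _)
      have := mul_le_of_le_one_left (abs_nonneg ⟪e, etail n w⟫) hv1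
      calc _ ≤ |ℓ x + v * ⟪e, etail n w⟫| + |γ b| := abs_sub _ _
        _ ≤ |ℓ x| + |v * ⟪e, etail n w⟫| + |γ b| := add_le_add (abs_add_le _ _) le_rfl
        _ ≤ N x + G := by rw [abs_mul, hN]; linarith
    have e5 : |1 / B.r a| ≤ U := by simpa using hU a (hP _)
    calc |(ℓ x + u * ⟪e, etail n w⟫ - γ a) * (1 / B.r a) + σ * B.om s a
          - ((ℓ x + v * ⟪e, etail n w⟫ - γ b) * (1 / B.r b) + σ * B.om s b)|
        = |((u - v) * ⟪e, etail n w⟫ - (γ a - γ b)) * (1 / B.r a)
          + (ℓ x + v * ⟪e, etail n w⟫ - γ b) * (1 / B.r a - 1 / B.r b)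
          + σ * (B.om s a - B.om s b)| := by congr 1; ring
      _ ≤ |((u - v) * ⟪e, etail n w⟫ - (γ a - γ b)) * (1 / B.r a)|
          + |(ℓ x + v * ⟪e, etail n w⟫ - γ b) * (1 / B.r a - 1 / B.r b)|
          + |σ * (B.om s a - B.om s b)| := abs_add_three _ _ _
      _ ≤ (|u - v| * |⟪e, etail n w⟫| + (Lγ : ℝ) * (|w 0| * |u - v|)) * U
          + (N x + G) * ((Real.toNNReal ((Lr : ℝ) / m ^ 2) : ℝ) * (|w 0| * |u - v|))
          + (Lω : ℝ) * (|w 0| * |u - v|) := by
          rw [abs_mul, abs_mul, abs_mul σ, hσ, one_mul]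
          refine add_le_add (add_le_add ?_ ?_) e3
          · refine mul_le_mul ((abs_sub _ _).trans (add_le_add (by rw [abs_mul]) e1)) e5
              (abs_nonneg _) (by positivity)
          · exact mul_le_mul e4 e2 (abs_nonneg _) ((abs_nonneg _).trans e4)
      _ = _ := by ring
  have hgood : MeasurableSet {x : EuclideanSpace ℝ (Fin (n + 1)) | x 0 ∈ Ioo p q ∧
      DifferentiableAt ℝ B.r (x 0) ∧ DifferentiableAt ℝ γ (x 0) ∧ |W x| ≠ δ} :=
    (measurableSet_Ioo.preimage hc0.measurable).inter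
      (((measurableSet_of_differentiableAt ℝ B.r).preimage hc0.measurable).inter
        (((measurableSet_of_differentiableAt ℝ γ).preimage hc0.measurable).inter
          (measurableSet_eq_fun hWc.abs.measurable measurable_const).compl))
  have hdiff_t : ∀ᵐ t ∂volume.restrict (Icc p q),
      t ∈ Ioo p q ∧ DifferentiableAt ℝ B.r t ∧ DifferentiableAt ℝ γ t := by
    rw [← restrict_Ioo_eq_restrict_Icc]
    filter_upwards [ae_restrict_mem measurableSet_Ioo,
      ae_restrict_of_ae_restrict_of_subset Ioo_subset_Icc_self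
        (hLr.ae_differentiableWithinAt_real measurableSet_Icc),
      ae_restrict_of_ae_restrict_of_subset Ioo_subset_Icc_self
        (hLγ.ae_differentiableWithinAt_real measurableSet_Icc)] with t ht h1 h2
    exact ⟨ht, h1.differentiableAt (Icc_mem_nhds ht.1 ht.2),
      h2.differentiableAt (Icc_mem_nhds ht.1 ht.2)⟩
  have hgood_ae : ∀ᵐ x ∂volume.restrict (slab B p q), x 0 ∈ Ioo p q ∧
      DifferentiableAt ℝ B.r (x 0) ∧ DifferentiableAt ℝ γ (x 0) ∧ |W x| ≠ δ := by
    refine ae_roundSet measurableSet_Icc hcptK.measurableSet hgood ?_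
    filter_upwards [hdiff_t] with t ht
    obtain ⟨htI, hd1, hd2⟩ := ht
    have hr := B.r_pos t (hIcc (Ioo_subset_Icc_self htI))
    set η := σ * B.om s t with hη
    have hbad : volume ({y | |(⟪e, y⟫ - ⟪e, B.c t⟫) / B.r t + η| = δ}
        ∩ closedBall (B.c t) (B.r t)) = 0 := by
      have hmS : MeasurableSet {y : EuclideanSpace ℝ (Fin n) |
          |(⟪e, y⟫ - ⟪e, B.c t⟫) / B.r t + η| = δ} :=
        measurableSet_eq_fun (by fun_prop) measurable_const
      have h := integral_ball_coord hn e he (B.c t) hr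
        (f := ({x : ℝ | |x + η| = δ}).indicator fun _ => (1 : ℝ))
        (measurable_const.indicator (measurableSet_eq_fun (by fun_prop) measurable_const))
        (B := 1) (fun x => by by_cases hx : |x + η| = δ <;> simp [indicator, hx])
      have hz : ∫ x, ({x : ℝ | |x + η| = δ}).indicator (fun _ => (1 : ℝ)) x * gK n x = 0 := by
        refine integral_eq_zero_of_ae ?_
        have hfin : ∀ᵐ x : ℝ, x ∉ ({δ - η, -δ - η} : Set ℝ) :=
          measure_eq_zero_iff_ae_notMem.1 (((finite_singleton _).insert _).measure_zero volume)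
        filter_upwards [hfin] with x hx
        rw [indicator_of_notMem]
        · simp
        · intro h'
          simp only [mem_ofPred_eq] at h'
          simp only [mem_insert_iff, mem_singleton_iff, not_or] at hx
          rcases eq_or_eq_neg_of_abs_eq h' with h'' | h''
          · exact hx.1 (by linarith)
          · exact hx.2 (by linarith)
      rw [hz, mul_zero] at h
      have h' : ∫ y in closedBall (B.c t) (B.r t), ({y : EuclideanSpace ℝ (Fin n) |
          |(⟪e, y⟫ - ⟪e, B.c t⟫) / B.r t + η| = δ}).indicator (fun _ => (1 : ℝ)) y = 0 := h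
      rw [integral_indicator_const _ hmS, smul_eq_mul, mul_one,
        measureReal_restrict_apply hmS] at h'
      exact (measureReal_eq_zero_iff (lt_of_le_of_lt (measure_mono inter_subset_right)
        measure_closedBall_lt_top).ne).1 h'
    rw [ae_restrict_iff' measurableSet_closedBall]
    filter_upwards [measure_eq_zero_iff_ae_notMem.1 hbad] with y hy hyb
    simp only [econs_apply_zero]
    refine ⟨htI, hd1, hd2, fun h => hy ⟨?_, hyb⟩⟩
    simp only [mem_ofPred_eq]
    rw [← h]
    simp only [W, ℓ, econs_apply_zero, etail_econs, hPid t (Ioo_subset_Icc_self htI), γ, η]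
    congr 1
    ring
  have hderiv : ∀ᵐ x ∂volume.restrict (slab B p q),
      HasDerivAt (fun ε : ℝ => Phi δ (W (x + ε • w))) (F' x) 0 := by
    filter_upwards [hgood_ae] with x hx
    obtain ⟨hxI, hd1, hd2, hW⟩ := hx
    have hh : HasDerivAt (fun ε : ℝ => x 0 + ε * w 0) (w 0) 0 := by
      simpa using ((hasDerivAt_id (0 : ℝ)).mul_const (w 0)).const_add (x 0)
    have hrp := B.r_pos _ (hIcc (Ioo_subset_Icc_self hxI))
    have h1 : HasDerivAt (fun ε : ℝ => (ℓ x + ε * ⟪e, etail n w⟫ - γ (x 0 + ε * w 0)) *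
        (1 / B.r (x 0 + ε * w 0)) + σ * B.om s (x 0 + ε * w 0))
        ((⟪e, etail n w⟫ - deriv γ (x 0) * w 0) * (1 / B.r (x 0))
          + (ℓ x - γ (x 0)) * (-(deriv B.r (x 0) * w 0) / B.r (x 0) ^ 2)
          + σ * (B.om' s (x 0) * w 0)) 0 := by
      have a1 := ((hasDerivAt_id (0 : ℝ)).mul_const ⟪e, etail n w⟫).const_add (ℓ x)
      have a2 := (hd2.hasDerivAt).comp_of_eq (0 : ℝ) hh (by simp)
      have a3 := ((hd1.hasDerivAt).comp_of_eq (0 : ℝ) hh (by simp)).inv (by simpa using hrp.ne')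
      have a4 := (B.hasDerivAt_om s (hIcc (Ioo_subset_Icc_self hxI))).comp_of_eq (0 : ℝ) hh
        (by simp)
      have := ((a1.sub a2).mul a3).add (a4.const_mul σ)
      simp only [Function.comp_def, Pi.inv_apply, Pi.sub_apply, id_eq, zero_mul, add_zero,
        one_mul, ← one_div] at this
      exact this
    have hev : (fun ε : ℝ => W (x + ε • w)) =ᶠ[𝓝 0] fun ε : ℝ =>
        (ℓ x + ε * ⟪e, etail n w⟫ - γ (x 0 + ε * w 0)) *
          (1 / B.r (x 0 + ε * w 0)) + σ * B.om s (x 0 + ε * w 0) := by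
      have : ∀ᶠ ε in 𝓝 (0 : ℝ), x 0 + ε * w 0 ∈ Ioo p q :=
        hh.continuousAt.eventually_mem (isOpen_Ioo.mem_nhds (by simpa using hxI))
      filter_upwards [this] with ε hε
      have hx0 : (x + ε • w) 0 = x 0 + ε * w 0 := by simp
      have hℓ : ℓ (x + ε • w) = ℓ x + ε * ⟪e, etail n w⟫ := by
        simp [ℓ, map_add, map_smul, inner_add_right, real_inner_smul_right]
      simp only [W, hx0, hℓ, hPid _ (Ioo_subset_Icc_self hε)]
    refine ((hasDerivAt_Phi hδ hW).comp_of_eq (0 : ℝ) (h1.congr_of_eventuallyEq hev)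
      (by simp)).congr_deriv ?_
    simp only [hF', hA, hC, hPid _ (Ioo_subset_Icc_self hxI)]
    field_simp
    ring
  have hbint : Integrable bound (volume.restrict (slab B p q)) := by
    refine (Continuous.continuousOn ?_).integrableOn_compact hcptK
    simp only [hbound, hN]
    fun_prop
  have hF0 : Integrable (fun x => Phi δ (W (x + (0 : ℝ) • w))) (volume.restrict (slab B p q)) :=
    (((continuous_Phi δ).comp hWc).comp (by fun_prop :
      Continuous fun x => x + (0 : ℝ) • w)).continuousOn.integrableOn_compact hcptK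
  obtain ⟨hF'i, hD⟩ := hasDerivAt_integral_of_dominated_loc_of_lip (ball_mem_nhds 0 one_pos)
    (Eventually.of_forall fun ε => (((continuous_Phi δ).comp hWc).comp (by fun_prop :
      Continuous fun x => x + ε • w)).aestronglyMeasurable) hF0
    hF'm.aestronglyMeasurable hlip hbint hderiv
  refine hD.congr_deriv ?_
  rw [slab, integral_roundSet measurableSet_Icc hcptK.measurableSet hF'i]
  have hinner : ∀ t ∈ Icc p q, ∫ y in closedBall (B.c t) (B.r t), F' (econs t y)
      = B.r t ^ n * (A t * Hd n δ (σ * B.om s t) + C t * Md n δ (σ * B.om s t)) := by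
    intro t ht
    set η := σ * B.om s t with hη
    have hrt := B.r_pos t (hIcc ht)
    have hfun : ∀ y, F' (econs t y)
        = (fun x => dPhi δ (x + η) * (A t + C t * x)) ((⟪e, y⟫ - ⟪e, B.c t⟫) / B.r t) := by
      intro y
      simp only [hF', W, ℓ, econs_apply_zero, etail_econs, hPid t ht, γ, η]
      ring_nf
    simp only [hfun]
    rw [integral_ball_coord hn e he (B.c t) hrt
      (f := fun x => dPhi δ (x + η) * (A t + C t * x))
      (((measurable_dPhi δ).comp (by fun_prop : Measurable fun x : ℝ => x + η)).mul (by fun_prop))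
      (B := 1 / δ * (|A t| + |C t| * (|η| + δ)))]
    · congr 1
      rw [dPhi_moment hδ η (fun x => A t + C t * x)]
      have hg := continuous_gK n
      simp only [add_mul, mul_assoc]
      rw [intervalIntegral.integral_add ((by fun_prop : Continuous _).intervalIntegrable _ _)
        ((by fun_prop : Continuous _).intervalIntegrable _ _),
        intervalIntegral.integral_const_mul, intervalIntegral.integral_const_mul, Hd, Md]
      ring
    · intro x
      rw [abs_mul]
      by_cases hx : x + η ∈ Ioo (-δ) δ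
      · refine mul_le_mul (abs_dPhi_le hδ _) ?_ (abs_nonneg _) (by positivity)
        refine (abs_add_le _ _).trans (add_le_add le_rfl ?_)
        rw [abs_mul]
        refine mul_le_mul_of_nonneg_left ?_ (abs_nonneg _)
        have := abs_lt.2 hx
        calc |x| = |(x + η) + -η| := by congr 1; ring
          _ ≤ |x + η| + |-η| := abs_add_le _ _
          _ ≤ |η| + δ := by rw [abs_neg]; linarith
      · rw [dPhi, indicator_of_notMem hx, abs_zero, zero_mul]
        positivity
  rw [setIntegral_congr_fun measurableSet_Icc hinner, integral_Icc_eq_integral_Ioc,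
    ← intervalIntegral.integral_of_le hpq.le]
  have hHeven : ∀ η, Hd n δ (σ * η) = Hd n δ η := by
    intro η
    rcases abs_eq (zero_le_one) |>.1 hσ with h | h <;> simp [h, Hd_neg]
  have hKeven : ∀ η, Kd n δ (σ * η) = Kd n δ η := by
    intro η
    rcases abs_eq (zero_le_one) |>.1 hσ with h | h <;> simp [h, Kd_neg]
  have hpow : ∀ t, B.r t ^ n = B.r t ^ (n - 1) * B.r t := fun t => by
    rw [← pow_succ]; congr 1; omega
  have huIcc : uIcc p q = Icc p q := uIcc_of_le hpq.le
  have hcr : ContinuousOn B.r (uIcc p q) := huIcc ▸ hLr.continuousOn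
  have hcom : ContinuousOn (B.om s) (uIcc p q) := huIcc ▸ (B.continuousOn_om s).mono hIcc
  have hcom' : ContinuousOn (B.om' s) (uIcc p q) := huIcc ▸ (B.continuousOn_om' s).mono hIcc
  have hcH : ContinuousOn (fun t => Hd n δ (B.om s t)) (uIcc p q) :=
    (continuous_Hd n δ).comp_continuousOn hcom
  have hcMd : Continuous (Md n δ) :=
    continuous_iff_continuousAt.2 fun η => (hasDerivAt_Md n δ η).continuousAt
  have hacγ : AbsolutelyContinuousOnInterval γ p q :=
    (huIcc ▸ hLγ).absolutelyContinuousOnInterval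
  have hacr : AbsolutelyContinuousOnInterval B.r p q :=
    (huIcc ▸ hLr).absolutelyContinuousOnInterval
  obtain ⟨Lp, hLp⟩ : ∃ L : ℝ≥0, LipschitzOnWith L (fun t => Md n δ (σ * B.om s t)) (Icc p q) :=
    exists_lipschitzOnWith_of_deriv
      (f' := fun t => Md' n δ (σ * B.om s t) * (σ * B.om' s t))
      (fun t ht => by
        have h2 := (B.hasDerivAt_om s (hIcc ht)).const_mul σ
        exact ((hasDerivAt_Md n δ _).comp t h2 :))
      (((continuous_Md' n δ).comp_continuousOn
        (continuousOn_const.mul ((B.continuousOn_om s).mono hIcc))).mul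
        (continuousOn_const.mul ((B.continuousOn_om' s).mono hIcc)))
  obtain ⟨Ln, hLn⟩ : ∃ L : ℝ≥0, LipschitzOnWith L (fun t => B.r t ^ n) (Icc p q) := by
    obtain ⟨M, hM⟩ := isCompact_Icc.exists_bound_of_continuousOn hLr.continuousOn
    obtain ⟨L', hL'⟩ := exists_lipschitzOnWith_of_deriv (f := fun x : ℝ => x ^ n)
      (p := -M) (q := M) (fun x _ => hasDerivAt_pow n x) (by fun_prop)
    exact ⟨L' * Lr, hL'.comp hLr fun t ht => abs_le.1 (hM t ht)⟩
  have hacn : AbsolutelyContinuousOnInterval (fun t => B.r t ^ n) p q :=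
    (huIcc ▸ hLn).absolutelyContinuousOnInterval
  have hacM : AbsolutelyContinuousOnInterval (fun t => Md n δ (σ * B.om s t)) p q :=
    (huIcc ▸ hLp).absolutelyContinuousOnInterval
  have hibp : (∫ t in p..q, B.r t ^ (n - 1) * deriv B.r t * Md n δ (σ * B.om s t))
      = -(∫ t in p..q, B.r t ^ n * (Md' n δ (σ * B.om s t) * (σ * B.om' s t)) / n) := by
    have h := AbsolutelyContinuousOnInterval.integral_deriv_mul_eq_sub hacn hacM
    have hz : ∀ t, 1 + δ ≤ |B.om s t| → Md n δ (σ * B.om s t) = 0 := fun t ht =>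
      (kernels_eq_zero hn hδ (by rw [abs_mul, hσ, one_mul]; exact ht)).2.1
    rw [hz p hωp, hz q hωq, mul_zero, mul_zero, sub_self] at h
    have hae : ∀ᵐ t, t ∈ uIoc p q →
        deriv (fun t => B.r t ^ n) t * Md n δ (σ * B.om s t)
          + B.r t ^ n * deriv (fun t => Md n δ (σ * B.om s t)) t
        = (n : ℝ) * (B.r t ^ (n - 1) * deriv B.r t * Md n δ (σ * B.om s t)
          + B.r t ^ n * (Md' n δ (σ * B.om s t) * (σ * B.om' s t)) / n) := by
      filter_upwards [(ae_restrict_iff' measurableSet_Icc).1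
          (hLr.ae_differentiableWithinAt_real measurableSet_Icc), (finite_singleton q).measure_zero volume
        |> measure_eq_zero_iff_ae_notMem.1] with t h1 hne ht
      rw [uIoc_of_le hpq.le] at ht
      have htI : t ∈ Ioo p q := ⟨ht.1, lt_of_le_of_ne ht.2 hne⟩
      have hd := ((h1 (Ioo_subset_Icc_self htI)).differentiableAt
        (Icc_mem_nhds htI.1 htI.2)).hasDerivAt
      have e2 := (hasDerivAt_Md n δ _).comp t
        ((B.hasDerivAt_om s (hIcc (Ioo_subset_Icc_self htI))).const_mul σ)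
      rw [show (fun t => B.r t ^ n) = B.r ^ n from rfl, (hd.pow n).deriv, show (fun t => Md n δ (σ * B.om s t)) = Md n δ ∘ fun t => σ * B.om s t
        from rfl, e2.deriv]
      have : (n : ℝ) ≠ 0 := by exact_mod_cast (by omega : n ≠ 0)
      field_simp
    rw [intervalIntegral.integral_congr_ae hae, intervalIntegral.integral_const_mul] at h
    have hn0 : (n : ℝ) ≠ 0 := by exact_mod_cast (by omega : n ≠ 0)
    have h' := (mul_eq_zero.1 h).resolve_left hn0
    rw [intervalIntegral.integral_add] at h'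
    · linarith
    · exact (hacr.intervalIntegrable_deriv.continuousOn_mul (hcr.pow (n - 1))).mul_continuousOn
        (hcMd.comp_continuousOn (continuousOn_const.mul hcom))
    · exact (((hcr.pow n).mul (((continuous_Md' n δ).comp_continuousOn
        (continuousOn_const.mul hcom)).mul (continuousOn_const.mul hcom'))).div_const _
        ).intervalIntegrable
  set i₁ : ℝ → ℝ := fun t => B.r t ^ (n - 1) * Hd n δ (B.om s t) with hi₁
  set i₂ : ℝ → ℝ := fun t => deriv γ t * B.r t ^ (n - 1) * Hd n δ (B.om s t) with hi₂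
  set i₃ : ℝ → ℝ := fun t => B.r t ^ n * B.om' s t * Hd n δ (B.om s t) with hi₃
  set i₄ : ℝ → ℝ := fun t => B.r t ^ (n - 1) * deriv B.r t * Md n δ (σ * B.om s t) with hi₄
  have hint₁ : IntervalIntegrable i₁ volume p q :=
    ((hcr.pow (n - 1)).mul hcH).intervalIntegrable
  have hint₂ : IntervalIntegrable i₂ volume p q :=
    (hacγ.intervalIntegrable_deriv.mul_continuousOn (hcr.pow (n - 1))).mul_continuousOn hcH
  have hint₃ : IntervalIntegrable i₃ volume p q :=
    (((hcr.pow n).mul hcom').mul hcH).intervalIntegrable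
  have hint₄ : IntervalIntegrable i₄ volume p q :=
    (hacr.intervalIntegrable_deriv.continuousOn_mul (hcr.pow (n - 1))).mul_continuousOn
      (hcMd.comp_continuousOn (continuousOn_const.mul hcom))
  have hexp : EqOn (fun t => B.r t ^ n * (A t * Hd n δ (σ * B.om s t) + C t * Md n δ (σ * B.om s t)))
      (fun t => ⟪e, etail n w⟫ * i₁ t + w 0 * (-i₂ t + σ * i₃ t - i₄ t)) (uIcc p q) := by
    intro t ht
    rw [huIcc] at ht
    have hrt := B.r_pos t (hIcc ht)
    simp only [hA, hC, hHeven, hPid t ht, hi₁, hi₂, hi₃, hi₄, hpow t]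
    field_simp
    ring
  have hint₂' : IntervalIntegrable (fun t => -i₂ t) volume p q := hint₂.neg
  rw [intervalIntegral.integral_congr hexp, intervalIntegral.integral_add
    (hint₁.const_mul _) (((hint₂'.add
      (hint₃.const_mul σ)).sub hint₄).const_mul _),
    intervalIntegral.integral_const_mul, intervalIntegral.integral_const_mul,
    intervalIntegral.integral_sub (hint₂'.add
      (hint₃.const_mul σ)) hint₄,
    intervalIntegral.integral_add hint₂'
      (hint₃.const_mul σ), intervalIntegral.integral_neg,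
    intervalIntegral.integral_const_mul, hibp]
  have hcomb : (∫ t in p..q, B.r t ^ n * B.om' s t * Kd n δ (B.om s t))
      = (∫ t in p..q, i₃ t)
        + σ * ∫ t in p..q, B.r t ^ n * (Md' n δ (σ * B.om s t) * (σ * B.om' s t)) / n := by
    rw [← intervalIntegral.integral_const_mul, ← intervalIntegral.integral_add hint₃]
    · refine intervalIntegral.integral_congr fun t _ => ?_
      have hK := Md'_eq hn δ (σ * B.om s t)
      have hσ2 : σ * σ = 1 := by rw [← abs_mul_abs_self, hσ, one_mul]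
      rw [hKeven, hHeven] at hK
      simp only [hi₃]
      rw [← hK]
      linear_combination (-(B.r t ^ n * Md' n δ (σ * B.om s t) * B.om' s t / n)) * hσ2
    · exact ((((hcr.pow n).mul (((continuous_Md' n δ).comp_continuousOn
        (continuousOn_const.mul hcom)).mul (continuousOn_const.mul hcom'))).div_const _
        ).intervalIntegrable).const_mul _
  rw [hcomb]
  conv_rhs => arg 2; arg 2; rw [← econs_etail w]
  rw [inner_econs, real_inner_smul_right, real_inner_comm e (etail n w)]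
  have hσ2 : σ * σ = 1 := by rw [← abs_mul_abs_self, hσ, one_mul]
  linear_combination (-(w 0 * ∫ t in p..q,
    B.r t ^ n * (Md' n δ (σ * B.om s t) * (σ * B.om' s t)) / n)) * hσ2

end

end Vale.Agent.P237R
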