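import Vale.Agent.P237R.Kernel

/-!
# Profiles of bodies with round cross-sections
-/

namespace Vale.Agent.P237R

open MeasureTheory Set Metric Filter Topology Vale.Agent.P237
open scoped RealInnerProductSpace ENNReal NNReal

/-- A convex body in `ℝ^(n+1)` with round cross-sections orthogonal to the first axis. -/
structure Body (n : ℕ) where
  a : ℝ
  b : ℝ
  c : ℝ → EuclideanSpace ℝ (Fin n)
  r : ℝ → ℝ
  hn : 2 ≤ n
  hab : a < b
  cpt : IsCompact (roundSet (Icc a b) c r)
  conv : Convex ℝ (roundSet (Icc a b) c r)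
  r_nonneg : ∀ t ∈ Icc a b, 0 ≤ r t
  r_pos : ∀ t ∈ Ioo a b, 0 < r t

namespace Body

variable {n : ℕ} (B : Body n)
include B

/-- The body. -/
def set : Set (EuclideanSpace ℝ (Fin (n + 1))) := roundSet (Icc B.a B.b) B.c B.r

lemma concaveOn_r_add (e : EuclideanSpace ℝ (Fin n)) (he : ‖e‖ = 1) :
    ConcaveOn ℝ (Icc B.a B.b) (fun t => B.r t + ⟪e, B.c t⟫) := by
  refine ⟨convex_Icc _ _, fun t ht u hu p q hp hq hpq => ?_⟩
  have hmem : ∀ v ∈ Icc B.a B.b,
      econs v (B.c v + B.r v • e) ∈ roundSet (Icc B.a B.b) B.c B.r := by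
    intro v hv
    rw [mem_roundSet, mem_closedBall_iff_norm, add_sub_cancel_left, norm_smul, he, mul_one,
      Real.norm_of_nonneg (B.r_nonneg v hv)]
    exact ⟨hv, le_rfl⟩
  have h := B.conv (hmem t ht) (hmem u hu) hp hq hpq
  rw [smul_econs, smul_econs, econs_add, mem_roundSet, mem_closedBall_iff_norm] at h
  have h2 := real_inner_le_norm e
    (p • (B.c t + B.r t • e) + q • (B.c u + B.r u • e) - B.c (p * t + q * u))
  rw [he, one_mul, inner_sub_right, inner_add_right, real_inner_smul_right, real_inner_smul_right,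
    inner_add_right, inner_add_right, real_inner_smul_right, real_inner_smul_right,
    real_inner_self_eq_norm_sq, he] at h2
  simp only [smul_eq_mul]
  linarith [h.2]

lemma exists_unit : ∃ e : EuclideanSpace ℝ (Fin n), ‖e‖ = 1 :=
  ⟨EuclideanSpace.single ⟨0, by linarith [B.hn]⟩ 1, by simp⟩

lemma concaveOn_r : ConcaveOn ℝ (Icc B.a B.b) B.r := by
  obtain ⟨e, he⟩ := B.exists_unit
  have h := ((B.concaveOn_r_add e he).add (B.concaveOn_r_add (-e) (by simpa using he))).smul
    (c := (1 / 2 : ℝ)) (by norm_num)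
  refine h.congr fun t _ => ?_
  simp only [Pi.add_apply, inner_neg_left, smul_eq_mul]
  ring

lemma exists_lipschitz {p q : ℝ} (hp : B.a < p) (hq : q < B.b) :
    (∃ L : ℝ≥0, LipschitzOnWith L B.r (Icc p q)) ∧
      ∀ e : EuclideanSpace ℝ (Fin n), ‖e‖ = 1 →
        ∃ L : ℝ≥0, LipschitzOnWith L (fun t => ⟪e, B.c t⟫) (Icc p q) := by
  have hsub : Icc p q ⊆ Ioo B.a B.b := Icc_subset_Ioo hp hq
  have key : ∀ f : ℝ → ℝ, ConcaveOn ℝ (Icc B.a B.b) f →
      ∃ L : ℝ≥0, LipschitzOnWith L f (Icc p q) := fun f hf =>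
    ((hf.subset Ioo_subset_Icc_self (convex_Ioo _ _)).locallyLipschitzOn isOpen_Ioo
      |>.mono hsub).exists_lipschitzOnWith_of_compact isCompact_Icc
  refine ⟨key _ B.concaveOn_r, fun e he => ?_⟩
  obtain ⟨L₁, h₁⟩ := key _ (B.concaveOn_r_add e he)
  obtain ⟨L₂, h₂⟩ := key _ B.concaveOn_r
  refine ⟨L₁ + L₂, LipschitzOnWith.of_dist_le_mul fun x hx y hy => ?_⟩
  have e1 := h₁.dist_le_mul x hx y hy
  have e2 := h₂.dist_le_mul x hx y hy
  simp only [Real.dist_eq] at e1 e2 ⊢
  rw [NNReal.coe_add, add_mul]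
  calc |⟪e, B.c x⟫ - ⟪e, B.c y⟫|
      = |(B.r x + ⟪e, B.c x⟫ - (B.r y + ⟪e, B.c y⟫)) - (B.r x - B.r y)| := by
        congr 1; ring
    _ ≤ _ := (abs_sub _ _).trans (add_le_add e1 e2)

lemma continuousOn_r : ContinuousOn B.r (Ioo B.a B.b) :=
  (B.concaveOn_r.subset Ioo_subset_Icc_self (convex_Ioo _ _)).continuousOn isOpen_Ioo

lemma exists_bound : ∃ M, ∀ t ∈ Icc B.a B.b, B.r t ≤ M := by
  obtain ⟨R, hR⟩ := B.cpt.isBounded.subset_closedBall 0
  refine ⟨R, fun t ht => ?_⟩
  obtain ⟨e, he⟩ := B.exists_unit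
  have hmem : ∀ σ : ℝ, |σ| = 1 →
      econs t (B.c t + (σ * B.r t) • e) ∈ roundSet (Icc B.a B.b) B.c B.r := by
    intro σ hσ
    rw [mem_roundSet, mem_closedBall_iff_norm, add_sub_cancel_left, norm_smul, he, mul_one,
      Real.norm_eq_abs, abs_mul, hσ, one_mul, abs_of_nonneg (B.r_nonneg t ht)]
    exact ⟨ht, le_rfl⟩
  have h1 := mem_closedBall_zero_iff.1 (hR (hmem 1 (by simp)))
  have h2 := mem_closedBall_zero_iff.1 (hR (hmem (-1) (by simp)))
  have hn : ∀ y : EuclideanSpace ℝ (Fin n), ‖y‖ ≤ ‖econs t y‖ := fun y =>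
    le_of_pow_le_pow_left₀ two_ne_zero (norm_nonneg _) (by
      rw [norm_econs_sq]; nlinarith [sq_nonneg t])
  have h3 := norm_sub_le (B.c t + ((1 : ℝ) * B.r t) • e) (B.c t + ((-1 : ℝ) * B.r t) • e)
  have h4 : ‖(B.c t + ((1 : ℝ) * B.r t) • e) - (B.c t + ((-1 : ℝ) * B.r t) • e)‖ = 2 * B.r t := by
    rw [add_sub_add_left_eq_sub, ← sub_smul, norm_smul, he, mul_one,
      Real.norm_of_nonneg (by linarith [B.r_nonneg t ht])]
    ring
  linarith [hn (B.c t + ((1 : ℝ) * B.r t) • e), hn (B.c t + ((-1 : ℝ) * B.r t) • e)]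

lemma integrableOn_pow (k : ℕ) : IntegrableOn (fun t => B.r t ^ k) (Ioo B.a B.b) := by
  obtain ⟨M, hM⟩ := B.exists_bound
  refine IntegrableOn.of_bound measure_Ioo_lt_top
    ((B.continuousOn_r.pow k).aestronglyMeasurable measurableSet_Ioo) (|M| ^ k) ?_
  filter_upwards [ae_restrict_mem measurableSet_Ioo] with t ht
  rw [Real.norm_eq_abs, abs_pow]
  exact pow_le_pow_left₀ (abs_nonneg _) (abs_le_abs_of_nonneg (B.r_pos t ht).le
    (hM t (Ioo_subset_Icc_self ht))) k

/-- The volume of the body. -/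
noncomputable def vol : ℝ := kap n * ∫ t in Ioo B.a B.b, B.r t ^ n

lemma volume_set : volume B.set = ENNReal.ofReal B.vol := by
  have h := lintegral_roundSet measurableSet_Icc B.cpt.measurableSet
    (f := fun _ => 1) measurable_const
  simp only [setLIntegral_one] at h
  rw [set, h, ← setLIntegral_congr (Ioo_ae_eq_Icc (a := B.a) (b := B.b)), vol,
    ← integral_const_mul, ofReal_integral_eq_lintegral_ofReal
      ((B.integrableOn_pow n).const_mul _)]
  · refine setLIntegral_congr_fun measurableSet_Ioo fun t ht => ?_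
    rw [volume_closedBall_eq _ (B.r_pos t ht).le]
  · filter_upwards [ae_restrict_mem measurableSet_Ioo] with t ht
    exact mul_nonneg (kap_pos n).le (pow_nonneg (B.r_pos t ht).le _)

lemma vol_pos : 0 < B.vol := by
  refine mul_pos (kap_pos n) ?_
  rw [integral_pos_iff_support_of_nonneg_ae ?_ (B.integrableOn_pow n)]
  · refine lt_of_lt_of_le ?_ (measure_mono (fun t (ht : t ∈ Ioo B.a B.b) =>
      (pow_pos (B.r_pos t ht) n).ne'))
    rw [Measure.restrict_apply_self, Real.volume_Ioo]
    exact ENNReal.ofReal_pos.2 (by linarith [B.hab])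
  · filter_upwards [ae_restrict_mem measurableSet_Ioo] with t ht
    exact pow_nonneg (B.r_pos t ht).le _

/-- The ratio of the volume of the unit ball and the volume of the body. -/
noncomputable def scale : ℝ := kap (n + 1) / B.vol

lemma scale_pos : 0 < B.scale := div_pos (kap_pos _) B.vol_pos

/-- The normalized volume below a height. -/
noncomputable def cum (t : ℝ) : ℝ :=
  B.scale * kap n * ∫ u in B.a..t, (Ioo B.a B.b).indicator (fun u => B.r u ^ n) u

lemma integrable_indicator :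
    Integrable ((Ioo B.a B.b).indicator (fun u => B.r u ^ n)) :=
  (B.integrableOn_pow n).integrable_indicator measurableSet_Ioo

lemma continuous_cum : Continuous B.cum :=
  continuous_const.mul (intervalIntegral.continuous_primitive
    (fun _ _ => B.integrable_indicator.intervalIntegrable) _)

lemma hasDerivAt_cum {t : ℝ} (ht : t ∈ Ioo B.a B.b) :
    HasDerivAt B.cum (B.scale * kap n * B.r t ^ n) t := by
  have hev : (Ioo B.a B.b).indicator (fun u => B.r u ^ n) =ᶠ[𝓝 t] fun u => B.r u ^ n := by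
    filter_upwards [isOpen_Ioo.mem_nhds ht] with u hu
    simp [hu]
  have hc : ContinuousAt (fun u => B.r u ^ n) t :=
    (B.continuousOn_r.pow n).continuousAt (isOpen_Ioo.mem_nhds ht)
  have h := intervalIntegral.integral_hasDerivAt_right
    (B.integrable_indicator.intervalIntegrable (a := B.a) (b := t))
    (B.integrable_indicator.1.stronglyMeasurableAtFilter) (hc.congr hev.symm)
  rw [indicator_of_mem ht] at h
  exact h.const_mul _

lemma cum_a : B.cum B.a = 0 := by simp [cum]

lemma cum_b : B.cum B.b = kap (n + 1) := by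
  rw [cum, intervalIntegral.integral_of_le B.hab.le, setIntegral_congr_set Ioo_ae_eq_Ioc.symm,
    setIntegral_indicator measurableSet_Ioo, inter_self, scale]
  have := B.vol_pos
  rw [vol] at this ⊢
  have hk := kap_pos n
  have hI : 0 < ∫ t in Ioo B.a B.b, B.r t ^ n := pos_of_mul_pos_right this hk.le
  field_simp

lemma strictMonoOn_cum : StrictMonoOn B.cum (Icc B.a B.b) := by
  refine strictMonoOn_of_hasDerivWithinAt_pos (convex_Icc _ _) B.continuous_cum.continuousOn
    (f' := fun t => B.scale * kap n * B.r t ^ n) (fun t ht => ?_) (fun t ht => ?_)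
  · rw [interior_Icc] at ht ⊢
    exact (B.hasDerivAt_cum ht).hasDerivWithinAt
  · rw [interior_Icc] at ht
    exact mul_pos (mul_pos B.scale_pos (kap_pos _)) (pow_pos (B.r_pos t ht) _)

lemma cum_mem {t : ℝ} (ht : t ∈ Ioo B.a B.b) : B.cum t ∈ Ioo 0 (kap (n + 1)) :=
  ⟨B.cum_a ▸ B.strictMonoOn_cum (left_mem_Icc.2 B.hab.le) (Ioo_subset_Icc_self ht) ht.1,
    B.cum_b ▸ B.strictMonoOn_cum (Ioo_subset_Icc_self ht) (right_mem_Icc.2 B.hab.le) ht.2⟩

/-- The normalized volume of the unit ball below a height. -/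
noncomputable def refCum (n : ℕ) (x : ℝ) : ℝ := ∫ u in (-1 : ℝ)..x, gK (n + 1) u

omit B in
lemma continuous_refCum (n : ℕ) : Continuous (refCum n) :=
  intervalIntegral.continuous_primitive (fun a b => (continuous_gK _).intervalIntegrable a b) _

omit B in
lemma hasDerivAt_refCum (n : ℕ) (x : ℝ) : HasDerivAt (refCum n) (gK (n + 1) x) x :=
  ((continuous_gK (n + 1)).integral_hasStrictDerivAt (-1) x).hasDerivAt

lemma gK_succ_pos {x : ℝ} (hx : x ∈ Ioo (-1 : ℝ) 1) : 0 < gK (n + 1) x := by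
  have : 0 < 1 - x ^ 2 := by nlinarith [hx.1, hx.2]
  exact mul_pos (kap_pos _) (pow_pos (Real.sqrt_pos.2 this) _)

lemma strictMonoOn_refCum : StrictMonoOn (refCum n) (Icc (-1) 1) := by
  refine strictMonoOn_of_hasDerivWithinAt_pos (convex_Icc _ _) (continuous_refCum n).continuousOn
    (f' := fun x => gK (n + 1) x) (fun x _ => (hasDerivAt_refCum n x).hasDerivWithinAt)
    (fun x hx => B.gK_succ_pos ?_)
  rwa [interior_Icc] at hx

lemma image_refCum : refCum n '' Ioo (-1) 1 = Ioo 0 (kap (n + 1)) := by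
  have h0 : refCum n (-1) = 0 := by simp [refCum]
  have hn := B.hn
  have h1 : refCum n 1 = kap (n + 1) := by
    rw [refCum, intervalIntegral.integral_of_le (by norm_num), setIntegral_gK (by omega)]
  refine Subset.antisymm (image_subset_iff.2 fun x hx => ?_) ?_
  · constructor
    · rw [← h0]
      exact B.strictMonoOn_refCum (left_mem_Icc.2 (by norm_num)) (Ioo_subset_Icc_self hx) hx.1
    · rw [← h1]
      exact B.strictMonoOn_refCum (Ioo_subset_Icc_self hx) (right_mem_Icc.2 (by norm_num)) hx.2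
  · have := intermediate_value_Ioo (by norm_num : (-1 : ℝ) ≤ 1) (continuous_refCum n).continuousOn
    rwa [h0, h1] at this

/-- The height in the unit ball with the same normalized volume below it. -/
noncomputable def T (t : ℝ) : ℝ := Function.invFunOn (refCum n) (Ioo (-1) 1) (B.cum t)

lemma T_spec {t : ℝ} (ht : t ∈ Ioo B.a B.b) :
    B.T t ∈ Ioo (-1 : ℝ) 1 ∧ refCum n (B.T t) = B.cum t := by
  have h : B.cum t ∈ refCum n '' Ioo (-1) 1 := by
    rw [B.image_refCum]; exact B.cum_mem ht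
  exact ⟨Function.invFunOn_mem h, Function.invFunOn_eq h⟩

lemma strictMonoOn_T : StrictMonoOn B.T (Ioo B.a B.b) := by
  intro t ht u hu htu
  by_contra hle
  rw [not_lt] at hle
  have h1 := B.strictMonoOn_refCum.monotoneOn (Ioo_subset_Icc_self (B.T_spec hu).1)
    (Ioo_subset_Icc_self (B.T_spec ht).1) hle
  rw [(B.T_spec hu).2, (B.T_spec ht).2] at h1
  exact absurd (B.strictMonoOn_cum (Ioo_subset_Icc_self ht) (Ioo_subset_Icc_self hu) htu)
    (not_lt.2 h1)

lemma image_T : B.T '' Ioo B.a B.b = Ioo (-1) 1 := by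
  refine Subset.antisymm (image_subset_iff.2 fun t ht => (B.T_spec ht).1) fun x hx => ?_
  have h : refCum n x ∈ Ioo (B.cum B.a) (B.cum B.b) := by
    rw [B.cum_a, B.cum_b, ← B.image_refCum]
    exact mem_image_of_mem _ hx
  obtain ⟨t, ht, htx⟩ := intermediate_value_Ioo B.hab.le B.continuous_cum.continuousOn h
  refine ⟨t, ht, B.strictMonoOn_refCum.injOn (Ioo_subset_Icc_self (B.T_spec ht).1)
    (Ioo_subset_Icc_self hx) ?_⟩
  rw [(B.T_spec ht).2, htx]

lemma continuousAt_T {t : ℝ} (ht : t ∈ Ioo B.a B.b) : ContinuousAt B.T t :=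
  B.strictMonoOn_T.continuousAt_of_image_mem_nhds (isOpen_Ioo.mem_nhds ht)
    (by rw [B.image_T]; exact isOpen_Ioo.mem_nhds (B.T_spec ht).1)

/-- The derivative of `T`. -/
noncomputable def T' (t : ℝ) : ℝ := B.scale * B.r t ^ n / √(1 - B.T t ^ 2) ^ n

lemma hasDerivAt_T {t : ℝ} (ht : t ∈ Ioo B.a B.b) : HasDerivAt B.T (B.T' t) t := by
  have hT := (B.T_spec ht).1
  have hg : HasDerivAt (fun x => refCum n x) (gK (n + 1) (B.T t)) (B.T t) :=
    hasDerivAt_refCum n _
  have hpos := B.gK_succ_pos hT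
  have hev : ∀ᶠ u in 𝓝 t, refCum n (B.T u) = B.cum u := by
    filter_upwards [isOpen_Ioo.mem_nhds ht] with u hu using (B.T_spec hu).2
  have hd := B.hasDerivAt_cum ht
  have hdiff : DifferentiableAt ℝ B.T t := by
    have hinv : HasDerivAt (fun y => Function.invFunOn (refCum n) (Ioo (-1) 1) y)
        (gK (n + 1) (B.T t))⁻¹ (B.cum t) := by
      refine HasDerivAt.of_local_left_inverse ?_ (f := refCum n) ?_ hpos.ne' ?_
      · have hs : StrictMonoOn (fun y => Function.invFunOn (refCum n) (Ioo (-1) 1) y)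
            (Ioo 0 (kap (n + 1))) := by
          intro y hy z hz hyz
          rw [← B.image_refCum] at hy hz
          by_contra hle
          rw [not_lt] at hle
          have h1 := B.strictMonoOn_refCum.monotoneOn
            (Ioo_subset_Icc_self (Function.invFunOn_mem hz))
            (Ioo_subset_Icc_self (Function.invFunOn_mem hy)) hle
          rw [Function.invFunOn_eq hy, Function.invFunOn_eq hz] at h1
          linarith
        refine hs.continuousAt_of_image_mem_nhds (isOpen_Ioo.mem_nhds (B.cum_mem ht)) ?_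
        refine Filter.mem_of_superset (isOpen_Ioo.mem_nhds hT) fun x hx =>
          ⟨refCum n x, ?_, ?_⟩
        · rw [← B.image_refCum]; exact mem_image_of_mem _ hx
        · exact (B.strictMonoOn_refCum.mono Ioo_subset_Icc_self).injOn.leftInvOn_invFunOn hx
      · exact hg
      · filter_upwards [isOpen_Ioo.mem_nhds (B.cum_mem ht)] with y hy
        rw [← B.image_refCum] at hy
        exact Function.invFunOn_eq hy
    exact (hinv.comp t hd).differentiableAt
  have h1 := (hg.comp t hdiff.hasDerivAt).congr_of_eventuallyEq (hev.mono fun u hu => hu.symm)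
  have heq := h1.unique hd
  have hTd : deriv B.T t = B.T' t := by
    have hk := kap_pos n
    have hsq : 0 < √(1 - B.T t ^ 2) := Real.sqrt_pos.2 (by nlinarith [hT.1, hT.2])
    rw [T', eq_div_iff (pow_pos hsq n).ne']
    simp only [gK, Nat.add_sub_cancel] at heq
    nlinarith
  exact hTd ▸ hdiff.hasDerivAt

lemma T'_pos {t : ℝ} (ht : t ∈ Ioo B.a B.b) : 0 < B.T' t := by
  have hT := (B.T_spec ht).1
  have := B.r_pos t ht
  have := B.scale_pos
  have hsq : 0 < √(1 - B.T t ^ 2) := Real.sqrt_pos.2 (by nlinarith [hT.1, hT.2])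
  unfold T'
  positivity

lemma continuousOn_T : ContinuousOn B.T (Ioo B.a B.b) :=
  fun _ ht => (B.continuousAt_T ht).continuousWithinAt

lemma continuousOn_T' : ContinuousOn B.T' (Ioo B.a B.b) := by
  refine (continuousOn_const.mul (B.continuousOn_r.pow n)).div
    ((continuousOn_const.sub (B.continuousOn_T.pow 2)).sqrt.pow n) ?_
  intro t ht
  have hT := (B.T_spec ht).1
  exact (pow_pos (Real.sqrt_pos.2 (by nlinarith [hT.1, hT.2])) n).ne'

lemma lintegral_comp_T (f : ℝ → ℝ≥0∞) :
    ∫⁻ t in Ioo B.a B.b, ENNReal.ofReal (B.T' t) * f (B.T t) = ∫⁻ x in Ioo (-1 : ℝ) 1, f x := by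
  rw [← B.image_T, lintegral_image_eq_lintegral_abs_deriv_mul measurableSet_Ioo
    (fun t ht => (B.hasDerivAt_T ht).hasDerivWithinAt) B.strictMonoOn_T.injOn]
  refine setLIntegral_congr_fun measurableSet_Ioo fun t ht => ?_
  rw [abs_of_pos (B.T'_pos ht)]

end Body

end Vale.Agent.P237R
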